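import Crest.Agent.X212.Tw59.Tw
import Crest.Agent.X212.Nrm43.Tf
import Crest.Agent.X212.Bd44.Vol

/-!
# Row 212, GEO engine (helper59), E-HOL
-/

set_option autoImplicit false
set_option maxHeartbeats 400000
set_option linter.unusedSectionVars false
noncomputable section
open scoped Manifold ContDiff Topology
open MeasureTheory Set Function Filter Module

namespace Crest.Agent.X212.Tw59
open An Cyf70 Sw Flo2 Geo28 Met55 Sw87.Mo
open Dr59 (Cl Dg pm dM ne0 SmAt)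
open Int54 (rat oc volF integ)
open Num57 (k1 k2 fm1)
open Nrm43 (nk_mem pot cuv cuv_spec cmp_k2 bA)
open Nd18 (Jv)

variable {κ μ : Type} [Fintype κ] [DecidableEq κ] [Fintype μ] [DecidableEq μ] {X X₁ X₂ : M4}
  {τ : MT κ X} {τ₁ : MT κ X₁} {τ₂ : MT κ X₂} {k : ℕ} {β : MB τ k}

theorem abs_sum {ι : Type} [Fintype ι] {g : ι → ℝ} {B : ℝ} (h : ∀ a, |g a| ≤ B) :
    |∑ a, g a| ≤ Fintype.card ι * B :=
  (Finset.abs_sum_le_sum_abs _ _).trans ((Finset.sum_le_card_nsmul _ _ _ fun a _ => h a).trans_eq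
    (nsmul_eq_mul _ _))

theorem abs_rat (F : Fr X.I X.M (Option κ)) {u v : X.Fm} {x : X.M} (hu : R208.FI.IsDeg 2 (u x))
    {η w : F2 κ} (h : ∀ a b, k2 F u a b x = 2 * η (a, b)) (h' : ∀ a b, k2 F v a b x = w (a, b)) :
    |rat (volF X.o F.e) (u * v) x| ≤
      5 / 4 * (Fintype.card (Option κ) : ℝ) ^ 4 * (‖η‖ ^ 2 + ‖w‖ ^ 2) := by
  have o : ∀ a b c d, |oc F.e (volF X.o F.e) a b c d x| ≤ 5 := fun a b c d => by
    have := (vo_oc F X.X.dim X.ori x).nm
    refine abs_le_of_sq_le_sq' (le_trans ?_ (this.trans_le (by norm_num))) (by norm_num) |> abs_le.2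
    refine le_trans ?_ (Finset.single_le_sum (fun _ _ => by positivity) (Finset.mem_univ a))
    refine le_trans ?_ (Finset.single_le_sum (fun _ _ => by positivity) (Finset.mem_univ b))
    refine le_trans ?_ (Finset.single_le_sum (fun _ _ => by positivity) (Finset.mem_univ c))
    exact Finset.single_le_sum (f := fun d => oc F.e (volF X.o F.e) a b c d x ^ 2)
      (fun _ _ => by positivity) (Finset.mem_univ d)
  rw [rat_mul F X.X.dim X.ori hu, abs_mul, abs_of_pos (by norm_num)]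
  refine (mul_le_mul_of_nonneg_left (abs_sum fun a => abs_sum fun b => abs_sum fun c => abs_sum
    (B := 5 * (‖η‖ ^ 2 + ‖w‖ ^ 2)) fun d => ?_) (by norm_num)).trans_eq (by ring)
  have h1 : |η (a, b)| ≤ ‖η‖ := PiLp.norm_apply_le η _
  have h2 : |w (c, d)| ≤ ‖w‖ := PiLp.norm_apply_le w _
  rw [h, h', abs_mul, abs_mul, abs_mul, abs_two]
  refine mul_le_mul (o a b c d) ?_ (by positivity) (by norm_num)
  nlinarith [mul_le_mul h1 h2 (abs_nonneg _) (norm_nonneg _), sq_nonneg (‖η‖ - ‖w‖)]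

/-! ### the thick part -/

variable (c : MC μ β) (H : PzStmt κ μ)
include H

theorem thick_iff (t : Tk k) (x : X.M) : x ∈ (c.P t).thick 3 ↔ ∀ i, 3 / 2 < β.v t i →
    x ∉ (τ.nb i).ψ (β.v t i) '' (univ ×ˢ Jv ((pa (τ.nb i).s).map (· + 3))
      ((qa (β.v t i) (τ.nb i).s).map (· - 3))) := by
  have e : ∀ i, ∀ K : Nk (X := X.X) (c.ty i).en (c.P t).bg, K.ng = (τ.nb i).ng (β.v t i) →
      K.ψ '' (univ ×ˢ K.deep 3) = (τ.nb i).ψ (β.v t i) '' (univ ×ˢ Jv ((pa (τ.nb i).s).map (· + 3))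
        ((qa (β.v t i) (τ.nb i).s).map (· - 3))) := fun i K h => by
    rw [Nk.deep, show K.p = _ from congrArg (·.1) h, show K.q = _ from congrArg (·.2.1) h,
      show K.ψ = _ from congrArg (·.2.2.1) h]
    rfl
  exact ⟨fun h i hi => let ⟨K, a, b⟩ := H.nk c t (c.ct t) i hi; e i K b ▸ h i K a,
    fun h i K hK => (e i K (nk_mem c t hK).2).symm ▸ h i (nk_mem c t hK).1⟩

theorem thick_cpt (t : Tk k) : IsCompact ((c.P t).thick 3) := by
  refine (τ.cpt 4).of_isClosed_subset ?_ fun x hx i => ?_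
  · simp only [Pz.thick, ofPred_forall]
    refine isClosed_iInter fun i => isClosed_iInter fun K => isClosed_iInter fun _ =>
      (K.ψ.isOpen_image_of_subset_source (isOpen_univ.prod (jv_open _ _)) ?_).isClosed_compl
    exact K.src ▸ fun z hz => ⟨trivial, fun a ha => by linarith [hz.2.1 _ (Option.mem_map_of_mem _ ha)],
      fun a ha => by linarith [hz.2.2 _ (Option.mem_map_of_mem _ ha)]⟩
  · have q : ∀ s, (τ.nb i).s = some s → (τ.nb i).n.tm x ∈ Jk (some s) →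
        (τ.nb i).n.tm x ∉ Jv ((pa (some s)).map (· + 3)) ((qa 2 (some s)).map (· - 3)) := fun s hs m k => by
      have v : β.v t i = 2 := Nrm43.v_end (by simp [hs])
      obtain ⟨y, hy⟩ := Pen22.exists_k (τ.nb i).n (p := x) (hs.symm ▸ m :)
      refine (thick_iff c H t x).1 hx i (by rw [v]; norm_num) ⟨(y, (τ.nb i).n.tm x), ⟨trivial, ?_⟩, ?_⟩
      · rw [← hs] at k; rw [v]; exact k
      · rw [v, Lr83.ψ_two]; exact hy
    refine ⟨fun hs => le_of_not_gt fun k => q _ hs (lt_trans four_pos k) ?_,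
      fun hs => le_of_not_gt fun k => q _ hs (lt_trans k (by norm_num)) ?_⟩ <;>
      simp [Jv, pa, qa] <;> linarith

theorem bd_all {f : X.Fm} {r : τ.N → ℝ} (hf : Dr59.Sm X.I univ f)
    (hz : ∀ i, β.Act i → (τ.nb i).Zf f (r i)) : ∃ B V : ℝ, 0 ≤ V ∧ ∀ t, (∀ a, β.wl a ≠ none → 0 ≤ t a) →
      (∀ x, ‖cmp (β.e t) f x‖ ≤ B) ∧ (β.F t).μ.real ((c.P t).thick 3) ≤ V := by
  obtain ⟨B, hB⟩ := Nrm43.cmp_bd hf (fun i => (c.std i).ok.sζ) hz
  obtain ⟨V, hV⟩ := Bd44.vol_thick H β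
  refine ⟨B, max V 0, le_max_right _ _, fun t ht => ?_⟩
  have m : clp β.wl t ∈ dom β.wl := fun a => by
    rcases e : β.wl a with _ | i <;> simp [clp, e]
  have v : β.v t = β.v (clp β.wl t) := funext fun i => by
    refine if_congr Iff.rfl (Finset.sum_congr rfl fun a _ => ?_) rfl
    split_ifs with e
    · simp [clp, e, ht a]
    · rfl
  have e : ∀ (e e' : Option κ → VF X.I X.M) (_ : e = e') p p', rFr e p = rFr e' p' := by
    rintro _ _ rfl _ _; rfl
  refine ⟨β.ret t ▸ hB _ m, ?_⟩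
  rw [show β.F t = β.F (clp β.wl t) from e _ _ (β.ret t) _ _, show (c.P t).thick 3 =
    (c.P (clp β.wl t)).thick 3 from Set.ext fun x => by rw [thick_iff c H, thick_iff c H, v]]
  exact ENNReal.toReal_le_of_le_ofReal (le_max_right _ _)
    ((hV c _ m).trans (ENNReal.ofReal_le_ofReal (le_max_left _ _)))

/-! ### potentials and curvature -/

omit H in
/-- the curvature of the trivial potential -/
abbrev om0 : X.Fm := Line51.Ln.F X.I ⟨c.m.det, 0⟩

variable {t : Tk k} {a : Sw.Cfg X.M κ (μ ⊕ μ)} (ha : (c.P t).bg.Adm a)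
include ha

omit H in
theorem k1_a (i : Option κ) : k1 (β.F t) (fm1 (β.F t) a.a) i = a.a i := funext fun x => by
  rw [Num57.k1_fm1, Nrm43.P_eq]; exact ha.pa i x

theorem pot_spec : ∃ u α : X.Fm, Dr59.Sm X.I univ u ∧ Dg 2 univ u ∧ Dr59.Sm X.I univ α ∧ Dg 1 univ α ∧
    Dr59.Sm X.I univ (om0 c) ∧ dM X.I α = u - om0 c ∧
    (∀ x i j, k2 (β.F t) u i j x = 2 * (c.P t).bg.fc a x (i, j)) ∧
    ∀ i x, k1 (β.F t) α i x = k1 (β.F t) (pot c t) i x + 2 * a.a i x := by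
  obtain ⟨h, h'⟩ := cuv_spec c t H
  have h0 : Line51.Ln.On X.I ⟨c.m.det, 0⟩ univ := ⟨h.sm, h.prj, h.tr, .zero, .zero⟩
  have s : Dr59.Sm X.I univ (fm1 (β.F t) a.a) := fun x _ => Num57.smAt_fm1 _ fun i => ha.sa i x
  have d : Dg 1 univ (fm1 (β.F t) a.a) := fun x _ => Num57.deg_fm1 _ _ x
  refine ⟨cuv c t + (2 : ℝ) • dM X.I (fm1 (β.F t) a.a), pot c t + (2 : ℝ) • fm1 (β.F t) a.a,
    (h.cl_F isOpen_univ).sm.add (s.dM.smul _), (h.cl_F isOpen_univ).dg.add ((d.dM isOpen_univ).smul _),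
    h.sa.add (s.smul _), h.dg.add (d.smul _), (h0.cl_F isOpen_univ).sm, funext fun x => ?_,
    fun x i j => ?_, fun i x => ?_⟩
  · have e : cuv c t x = om0 c x + dM X.I (pot c t) x :=
      (congrArg (fun a => Line51.Ln.F X.I ⟨c.m.det, a⟩ x) (zero_add _).symm).trans
        (h0.F_shift isOpen_univ h.sa trivial)
    rw [Dr59.dM_add ne0 (h.sa x trivial) ((s.smul _) x trivial), Dr59.dM_smul ne0 _ (s x trivial),
      Pi.sub_apply, Pi.add_apply, e]
    abel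
  · have e : (c.P t).bg.fc ⟨0, 0⟩ x (i, j) = 1 / 2 * k2 (β.F t) (cuv c t) i j x := by
      rw [h', cmp_k2, k2, Pi.smul_apply, Num57.e2_smul, ← k2]
    rw [k2, Pi.add_apply, Pi.smul_apply, Num57.e2_add, Num57.e2_smul, ← k2, ← k2,
      Num57.k2_dM_fm1 _ fun i => ha.sa i x, Mp86.En.fc_add (H.ok c t).1.bg fun i => ha.sa i x, e]
    simp only [k1_a c ha, Wz78.d1, Pre.D_def, smul_eq_mul]
    show _ = 2 * (_ + (Sob92.dv X.I ((β.F t).e i) _ x - Sob92.dv X.I ((β.F t).e j) _ x -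
      ∑ l, (β.F t).c i j l x * _))
    ring
  · rw [k1, Pi.add_apply, Pi.smul_apply, Num57.e1_add, Num57.e1_smul, ← k1, ← k1, k1_a c ha]

omit ha in
/-- the period of the reference potential does not depend on `t` -/
theorem pot_nk (i : τ.N) : ∃ a₀ : κ → (τ.nb i).e.A.Y.M → ℝ, ∀ t, ∀ K ∈ (c.P t).nk i, ∀ z ∈ K.ψ.source,
    ∀ l, k1 (β.F t) (pot c t) (some l) (K.ψ z) = a₀ l z.1 := by
  refine ⟨fun l y => ∑ j, (τ.nb i).e.D.B.P (some l) j (y, 0) * (-Wz78.trE (Line51.iL μ *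
    (c.ty i).en.m.p y * (c.ty i).en.cyl.A j (y, 0)) / 4), fun t K _ z hz l => ?_⟩
  rw [Num57.k1_fm1, Nrm43.P_eq]
  refine Finset.sum_congr rfl fun j _ => ?_
  rw [show β.B.P _ _ _ = _ from K.P _ j z hz, bA, show Line51.rl (c.m.p _) = _ from K.hp z hz, K.hA j z hz]
  cases j <;> rfl

theorem hs_eq {i : τ.N} {K} (hK : K ∈ (c.P t).nk i) {α : X.Fm} {s : ℝ} (m : s ∈ Jm (τ.nb i).s 0)
    (h : ∀ j x, k1 (β.F t) α j x = k1 (β.F t) (pot c t) j x + 2 * a.a j x)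
    {a₀ : κ → (τ.nb i).e.A.Y.M → ℝ}
    (h0 : ∀ z ∈ K.ψ.source, ∀ l, k1 (β.F t) (pot c t) (some l) (K.ψ z) = a₀ l z.1) :
    hs (τ.nb i).e (pm (IC (τ.nb i).e.A.Y.I) X.I (τ.nb i).k α) s =
      En3.hol (⟨a₀, 0⟩ : (c.ty i).en.YC) + 2 * En3.hol (En3.sl (K.pb a) (st (β.v t i) s)) := by
  obtain ⟨v, g⟩ := nk_mem c t hK
  have g' : K.ψ = (τ.nb i).ψ (β.v t i) := congrArg (·.2.2.1) g
  have e : ∀ y, K.ψ (y, st (β.v t i) s) = (τ.nb i).k (y, s) := fun y => by
    rw [g']; exact (NB.ψ_apply (b := τ.nb i) _ _).trans (by rw [symm_st])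
  have m' : ∀ y, (y, st (β.v t i) s) ∈ K.ψ.source := fun y => by
    rw [g', NB.ψ_src]; exact ⟨trivial, (st_mem _ _ _).2 m⟩
  have sk : ∀ y, ContMDiffAt (τ.nb i).e.A.Y.I X.I ∞ (fun y => (τ.nb i).k (y, s)) y := fun y =>
    (Nrm43.sm_k _ ((τ.nb i).V_sub zero_le_one ⟨trivial, m⟩)).comp y
      (contMDiffAt_id.prodMk contMDiffAt_const)
  have e0 : ∀ l, a₀ l = fun y => k1 (β.F t) (pot c t) (some l) ((τ.nb i).k (y, s)) := fun l =>
    funext fun y => (h0 _ (m' y) l).symm.trans (congrArg _ (e y))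
  have s0 : ∀ l, An.Sm (τ.nb i).e.A.Y.I (a₀ l) := fun l y => e0 l ▸
    ContMDiffAt.comp y (Num57.sa_k1 _ ((cuv_spec c t H).1.sa _ trivial) _) (sk y)
  have s1 : ∀ l, An.Sm (τ.nb i).e.A.Y.I fun y => a.a (some l) ((τ.nb i).k (y, s)) := fun l y =>
    (ha.sa _ _).comp y (sk y)
  have i0 := Dr9.int_ζ (c.std i).ok s0
  have i1 := (Dr9.int_ζ (c.std i).ok s1).const_mul 2
  simp only [En3.hol, En3.sl, Sw.Cfg.pb, e]
  refine Eq.trans (integral_congr_ae (.of_forall fun y => ?_))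
    ((integral_add i0 i1).trans (congrArg _ (integral_const_mul _ _)))
  have q : ∀ l, k1 (τ.nb i).e.D.Z (pm (IC (τ.nb i).e.A.Y.I) X.I (τ.nb i).k α) (some l) (y, s) =
      a₀ l y + 2 * a.a (some l) ((τ.nb i).k (y, s)) := fun l => by
    rw [e0, ← h]
    exact (Line51.e1_pb _ _ _).trans (congrArg _ (β.lit t i (by linarith) (some l) (y, s)
      ⟨trivial, jm_mono _ (by norm_num) m⟩))
  simp only [pd, q, mul_add, Finset.sum_add_distrib, mul_left_comm _ (2 : ℝ), ← Finset.mul_sum]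
  rfl

omit ha in
theorem hol_bd (γ : TG τ τ₁ τ₂) (hw : ∀ a, ∀ i ∈ β.wl a, i = γ.i) {f : X.Fm} {r : ℝ}
    (hf : LD τ (τ.nb γ.i) f r) : ∃ C : ℝ, ∀ t, ∀ K ∈ (c.P t).nk γ.i, ∀ a, (c.P t).bg.Adm a →
      K.deep 3 ≠ ∅ → ∃ s ∈ K.deep 2, s ∉ K.deep 3 ∧ |En3.hol (En3.sl (K.pb a) s)| ≤
        C * (1 + (∫⁻ x in (c.P t).thick 3, ‖(c.P t).bg.fc a x‖ₑ ^ 2 ∂(c.P t).bg.F.μ).toReal) := by
  classical
  have act : ∀ i, β.Act i → i ≠ γ.i → (τ.nb i).s ≠ none := fun i h n =>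
    h.elim id fun ⟨a, e⟩ => (n (hw a i e)).elim
  obtain ⟨B, V, V0, hB⟩ := bd_all c H (r := fun i => if i = γ.i then r else 0) hf.sm fun i hi => by
    by_cases n : i = γ.i
    · rw [if_pos n, n]; exact hf.z
    · intro x hx a a'
      rw [if_neg n, zero_mul, ite_self, Int54.cf, Dr59.pm_apply,
        hf.z0 i (act i hi n) _ (NB.k_mem zero_le_one hx)]
      simp
  obtain ⟨a₀, h0⟩ := pot_nk c H γ.i
  set N : ℝ := 5 / 4 * (Fintype.card (Option κ) : ℝ) ^ 4 with hN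
  set C₁ := ∫ x in Kq τ (τ.nb γ.i) (5 / 2), |rat X.o (om0 c * f) x| ∂Int54.dens X.I X.o
  set h₀ := En3.hol (⟨a₀, 0⟩ : (c.ty γ.i).en.YC)
  have N0 : 0 ≤ N := by positivity
  have C0 : 0 ≤ C₁ := integral_nonneg fun _ => abs_nonneg _
  refine ⟨|h₀| + 4 / |r| * (C₁ + N * (B ^ 2 * V) + N), fun t K hK a ha hd => ?_⟩
  obtain ⟨v, g⟩ := nk_mem c t hK
  have d : ∀ d s, s ∈ K.deep d ↔ 1 + d < s ∧ s < len (β.v t γ.i) + 1 - d := fun d s => by
    rw [Nk.deep, show K.p = _ from (congrArg (·.1) g).trans (congrArg pa (s_i γ)),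
      show K.q = _ from (congrArg (·.2.1) g).trans (congrArg (qa _) (s_i γ))]
    simp [Jv, pa, qa]
  obtain ⟨s₀, m₀⟩ := nonempty_iff_ne_empty.2 hd
  rw [d] at m₀
  obtain ⟨b1, b2⟩ := hB t fun b hb => by
    obtain ⟨j, e⟩ := Option.ne_none_iff_exists'.1 hb
    rw [← Nrm43.v_wl (t := t) e, hw b j e]; linarith
  set w := β.v t γ.i
  set p := (stH w).symm (7 / 2)
  set q := (stH w).symm 4
  have sp : st w p = 7 / 2 := st_symm _ _
  have sq : st w q = 4 := st_symm _ _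
  have p1 : 1 < p := (st_mono w).lt_iff_lt.1 (by rw [sp, st_lo w (by norm_num)]; norm_num)
  have q1 : q < 5 / 2 := (st_mono w).lt_iff_lt.1 (by rw [sq, st_hi w le_rfl]; linarith)
  have ct := (ct_up (φ := fun s => 2 * (st w s - 7 / 2)) (p := p) (q := q)
    ((st_mono w).le_iff_le.1 (by rw [sp, sq]; norm_num))
    (contDiff_const.mul ((st_sm w).sub contDiff_const))
    (fun _ _ k => by linarith [(st_mono w).monotone k]) (by linarith) (by linarith)).dn
  set χ := fun s => 1 - sT (2 * (st w s - 7 / 2)) with hχ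
  have z : ∀ s, q < s → χ s = 0 := fun s k => dn_hi (by linarith [st_mono w k])
  have z1 : ∀ s, |χ s| ≤ 1 := fun s => abs_le.2 ⟨(neg_one_lt_zero.le).trans
    (sub_nonneg.2 (Real.smoothTransition.le_one _)), sub_le_self _ (Real.smoothTransition.nonneg _)⟩
  have off := hf.off (q := 5 / 2) fun s k => z s (q1.trans k)
  have sub : Icc p q ⊆ Jm (τ.nb γ.i).s 0 := fun s k =>
    s_i γ ▸ jm_none.2 ⟨by linarith [k.1], by linarith [k.2]⟩
  obtain ⟨u, α, u1, u2, α1, α2, o1, e1, e2, e3⟩ := pot_spec c H ha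
  have h3 : (5 / 2 : ℝ) < 3 := by norm_num
  obtain ⟨s, m, e⟩ := per (τ.std _) (zo_of (c.std γ.i).ok) Kq_cpt (O := (τ.nb γ.i).n.tm ⁻¹' Iio 3)
    (fun _ k => lt_of_le_of_lt k.2 h3) hf.cl (α1.mono (subset_univ _))
    (α2.mono (subset_univ _)) hf.z ct sub (fun _ k => k.2.trans_lt (q1.trans h3)) off
  have m1 := (st_mono w).monotone m.1
  have m2 := (st_mono w).monotone m.2
  refine ⟨st w s, (d _ _).2 ⟨by linarith, by linarith⟩, fun k => by linarith [((d _ _).1 k).1], ?_⟩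
  have io : ∀ y, Dr59.Sm X.I univ y → Int54.IntOn X.I X.o ((fun x => χ ((τ.nb γ.i).n.tm x)) • (y * f))
      univ := fun y hy => X.ori.intOn_of_hcs (fun x => (((hy.mul hf.sm).fsmul fun x _ =>
        ct.smT (sub.trans (jm_sub _ zero_le_one)) x) x trivial).of_le (by simp))
      (.intro Kq_cpt fun x k => by rw [Pi.smul_apply', Pi.mul_apply, ← mul_smul_comm, off x k, mul_zero]) _
  rw [hs_eq c H ha hK (sub m) e3 (h0 t K hK), e1, sub_mul, smul_sub, Int54.integ_sub (io u u1) (io _ o1),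
    show χ q = 0 from dn_hi (by linarith), show χ p = 1 from dn_lo sp.le] at e
  have k1 : |integ X.I X.o ((fun x => χ ((τ.nb γ.i).n.tm x)) • (om0 c * f))| ≤ C₁ := by
    rw [Int54.integ_eq_integOn (s := Kq τ (τ.nb γ.i) (5 / 2)) fun x k => by
      rw [Pi.smul_apply', Pi.mul_apply, ← mul_smul_comm, off x k, mul_zero, map_zero], Int54.integOn, ← Real.norm_eq_abs]
    refine norm_integral_le_of_norm_le (X.ori.intOn_compact (fun x =>
      ((o1.mul hf.sm) x trivial).of_le (by simp)) (Kq_cpt (τ := τ))).abs (.of_forall fun x => ?_)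
    rw [Int54.rat_fsmul, Pi.mul_apply, Real.norm_eq_abs, abs_mul]
    exact mul_le_of_le_one_left (abs_nonneg _) (z1 _)
  have T := thick_cpt c H t
  have i1 : IntegrableOn (fun x => ‖(c.P t).bg.fc a x‖ ^ 2) ((c.P t).thick 3) (β.F t).μ :=
    ((ContMDiff.continuous (Mp86.En.sm_fc' (H.ok c t).1.bg ha)).norm.pow 2).continuousOn.integrableOn_compact T
  have i2 : IntegrableOn (fun _ => B ^ 2) ((c.P t).thick 3) (β.F t).μ :=
    continuousOn_const.integrableOn_compact T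
  have k2' : |integ X.I X.o ((fun x => χ ((τ.nb γ.i).n.tm x)) • (u * f))| ≤
      N * (∫ x in (c.P t).thick 3, ‖(c.P t).bg.fc a x‖ ^ 2 ∂(β.F t).μ + B ^ 2 * V) := by
    rw [X.ori.integ_vol (F := (β.F t).toPre) (rFr_vol _ _),
      ← setIntegral_eq_integral_of_forall_compl_eq_zero (s := (c.P t).thick 3) fun x k => ?_]
    · rw [← Real.norm_eq_abs]
      refine (norm_integral_le_of_norm_le ((i1.add i2).const_mul N) (.of_forall fun x => ?_)).trans ?_
      · rw [Int54.rat_fsmul, Pi.mul_apply, Real.norm_eq_abs, abs_mul]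
        refine (mul_le_of_le_one_left (abs_nonneg _) (z1 _)).trans ((abs_rat (β.F t) (u2 x trivial)
          (e2 x) fun i j => (cmp_k2 β t f x (i, j)).symm).trans (mul_le_mul_of_nonneg_left
            (add_le_add le_rfl (pow_le_pow_left₀ (norm_nonneg _) (b1 x) 2)) N0))
      · rw [integral_const_mul, integral_add' i1 i2, setIntegral_const, smul_eq_mul, mul_comm _ (B ^ 2)]
        gcongr
    · rw [thick_iff c H] at k
      push Not at k
      obtain ⟨i, hi, z', hz, rfl⟩ := k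
      refine Int54.rat_of_zero ?_
      rw [Pi.smul_apply', Pi.mul_apply, ← mul_smul_comm]
      have mz : z'.2 ∈ Jv (pa (τ.nb i).s) (qa (β.v t i) (τ.nb i).s) :=
        ⟨fun a ha => by linarith [hz.2.1 _ (Option.mem_map_of_mem _ ha)],
          fun a ha => by linarith [hz.2.2 _ (Option.mem_map_of_mem _ ha)]⟩
      have mV := NB.cy_mem mz
      by_cases n : i = γ.i
      · subst n
        have := hz.2.1 4 (by rw [s_i γ]; norm_num [pa])
        rw [show χ ((τ.nb γ.i).n.tm ((τ.nb γ.i).ψ _ z')) = 0 from z _ (((st_mono w).lt_iff_lt.1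
          (sq.trans_lt (this.trans_eq (st_symm w _).symm))).trans_eq
          (NB.tm_k ((τ.nb _).V_sub zero_le_one mV)).symm), zero_smul, mul_zero]
      · rw [show f ((τ.nb i).ψ _ z') = 0 from hf.z0 i (act i (Nrm43.act_of (t := t) (by linarith)) n) _
          (NB.k_mem zero_le_one mV), smul_zero, mul_zero]
  simp only [← ofReal_norm, ← ENNReal.ofReal_pow (norm_nonneg _)]
  have L0 : 0 ≤ ∫ x in (c.P t).thick 3, ‖(c.P t).bg.fc a x‖ ^ 2 ∂(β.F t).μ :=
    integral_nonneg fun _ => sq_nonneg _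
  refine le_trans ?_ (mul_le_mul_of_nonneg_left (add_le_add le_rfl ((ENNReal.toReal_ofReal L0).symm.trans
    (congrArg _ (ofReal_integral_eq_lintegral_ofReal i1 (.of_forall fun _ => sq_nonneg _)))).le)
    (by positivity))
  generalize ∫ x in (c.P t).thick 3, ‖(c.P t).bg.fc a x‖ ^ 2 ∂(β.F t).μ = L at k2' L0 ⊢
  generalize En3.hol (En3.sl (K.pb a) (st w s)) = x at e ⊢
  have r0 := abs_pos.2 hf.r0
  have e' := (congrArg abs e).symm.trans_le ((abs_sub _ _).trans (add_le_add k2' k1))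
  rw [abs_neg, abs_mul, abs_div, zero_sub, neg_one_mul, abs_neg, abs_of_pos (four_pos (α := ℝ)),
    ← le_div_iff₀' (by positivity), div_div_eq_mul_div, mul_div_assoc] at e'
  change |h₀ + 2 * x| ≤ _ at e'
  have e4 := abs_sub (h₀ + 2 * x) h₀
  rw [add_sub_cancel_left, abs_mul, abs_two] at e4
  have : 0 ≤ 4 / |r| := by positivity
  nlinarith [abs_nonneg x, abs_nonneg h₀, mul_nonneg L0 (abs_nonneg h₀),
    mul_nonneg this (mul_nonneg L0 (by positivity : 0 ≤ C₁ + N * (B ^ 2 * V))), mul_nonneg this N0]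

omit ha c H in
variable (κ μ) in
/-- **E-HOL** -/
theorem hol (H : PzStmt κ μ) : HolStmt κ μ := fun γ _ β c ens C hw h2 hP hL hx => by
  obtain ⟨f, r, hf⟩ := ld γ h2 hx
  refine ⟨fun t K hK u hu s hs => ?_, hol_bd c H γ hw hf⟩
  obtain ⟨-, g⟩ := nk_mem c t hK
  have m : (stH (β.v t γ.i)).symm s ∈ Jm none 0 := (st_mem _ _ _).1 (by
    rw [st_symm, ← s_i γ, ← show K.p = pa _ from congrArg (·.1) g,
      ← show K.q = qa _ _ from congrArg (·.2.1) g]
    exact hs)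
  rw [jm_none, sub_zero, add_zero] at m
  obtain ⟨N, φ, f1, f2⟩ := exists_dq (cl := c.cl γ.i) hL (jk_i γ ⟨one_pos.trans m.1, by linarith [m.2]⟩)
    fun y => ⟨hu.1.1 _, hu.1.2 _⟩
  obtain rfl : N = 0 := deg0 (MT.std _ γ.i) (c.std γ.i).ok hP hL.1
    (isOpen_Iio.preimage (NB.n _).cont) (hf.ts (by norm_num) (ct_dn 2)
      (fun s k => s_i γ ▸ jm_none.2 ⟨by linarith [k.1], by linarith [k.2]⟩) fun s k => dn_hi k.le)
    hf.r0 (by rw [dn_hi le_rfl, dn_lo le_rfl]; norm_num) (J := Ioo 1 3) isOpen_Ioo ordConnected_Ioo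
    (fun s k => ⟨by linarith [k.1], by linarith [k.2]⟩)
    (fun s k => jk_i γ ⟨by linarith [k.1], by linarith [k.2]⟩) (fun _ k => k.2)
    (fun x _ => ⟨hu.1.1 x, hu.1.2 x⟩) m f1 f2
  refine ⟨φ, f1, fun y => ?_⟩
  rw [show K.ψ = _ from congrArg (·.2.2.1) g]
  exact (f2 y).trans (by rw [zpow_zero, one_mul])

end Crest.Agent.X212.Tw59
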