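import Crest.Agent.X212.Tw59.Dat
import Crest.Agent.X212.Emo56.Cgl

/-!
# Row 212, GEO engine (helper59), E-TW
-/

set_option autoImplicit false
set_option maxHeartbeats 400000
set_option linter.unusedSectionVars false
noncomputable section
open scoped Manifold ContDiff Topology
open Set Function Filter Module

namespace Crest.Agent.X212.Tw59
open An Cyf70 Sw Flo2 Geo28 Met55 Sw87.Mo Pen22
open Lab56 (C8 CI)
open Gm56 (Rp LE fsm_cut exists_patchI)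
open Pj41 (FSm exists_sqP)

variable {κ μ : Type} [Fintype κ] [DecidableEq κ] [Fintype μ] [DecidableEq μ] {X X₁ X₂ : M4}
  {τ : MT κ X} {τ₁ : MT κ X₁} {τ₂ : MT κ X₂}

section ci
variable {l : Type} [Fintype l] [DecidableEq l] {m : C8 X.M (Option κ) l} {n : C8 X.M (Option κ) μ}
  {U V : Set X.M} {u v : X.M → Matrix μ l ℂ}

/-- isomorphisms glue if the ratio has a logarithm (the proof of `Gm56.ci_union`) -/
theorem ci_log (hU : IsOpen U) (hV : IsOpen V) (hc : U ∪ V = univ) (i : CI X.I m n u U)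
    (j : CI X.I m n v V) {r : X.M → ℝ}
    (hr : ∀ x ∈ U ∩ V, FSm X.I r x ∧ v x = Complex.exp (r x * Complex.I) • u x) :
    ∃ w, CI X.I m n w univ := by
  have := Sob92.scs (I := X.I) (M := X.M)
  obtain ⟨χ, hχ⟩ := exists_sqP (I := X.I) (U := fun b : Bool => cond b U V)
    (by rintro (_ | _); exacts [hV, hU]) fun x => by
      rcases (hc ▸ mem_univ x : x ∈ U ∪ V) with k | k
      exacts [⟨true, k⟩, ⟨false, k⟩]
  have sq : ∀ b x, x ∈ cond b V U → FSm X.I (fun y => χ b y * (χ b y * r y)) x := fun b x hx =>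
    fsm_cut (hχ.sm b x) (hχ.supp b) fun k => FSm.mul' (𝕜 := ℝ) (hχ.sm b x) (hr x (by
      cases b
      exacts [⟨hx, k⟩, ⟨k, hx⟩])).1
  obtain ⟨w, hw, -⟩ := exists_patchI (I := X.I) (m := m) (n := n) (U := fun b : Bool => cond b U V)
    (by rintro (_ | _); exacts [hV, hU])
    (v := fun b => cond b (fun x => Complex.exp ((χ false x * (χ false x * r x) : ℝ) * Complex.I) • u x)
      fun x => Complex.exp ((-(χ true x * (χ true x * r x)) : ℝ) * Complex.I) • v x)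
    (by
      rintro (_ | _)
      exacts [Gm56.CI.exp j fun x hx => (sq true x hx).neg, Gm56.CI.exp i (sq false)]) (by
      have key : ∀ x ∈ U ∩ V, Complex.exp ((χ false x * (χ false x * r x) : ℝ) * Complex.I) • u x =
          Complex.exp ((-(χ true x * (χ true x * r x)) : ℝ) * Complex.I) • v x := fun x hx => by
        have h1 := hχ.sq x
        rw [Fintype.sum_bool] at h1
        rw [(hr x hx).2, smul_smul, ← Complex.exp_add, ← add_mul, ← Complex.ofReal_add]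
        congr 4
        linear_combination r x * h1
      rintro (_ | _) (_ | _) x hx
      exacts [rfl, (key x ⟨hx.2, hx.1⟩).symm, key x hx, rfl])
  refine ⟨w, hw.mono fun x _ => ?_⟩
  rcases (hc ▸ mem_univ x : x ∈ U ∪ V) with k | k
  exacts [mem_iUnion.2 ⟨true, k⟩, mem_iUnion.2 ⟨false, k⟩]

theorem ci_res {e : Option κ → VF X.I X.M} {d d' : X.L} (h : Rp e m d) (h' : Rp e n d') (g : PD X₁ X)
    {s : X₁.L} (a : Bor5.T.Pb g g.source d s) (a' : Bor5.T.Pb g g.source d' s) :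
    ∃ u, CI X.I m n u g.target :=
  have := Sob92.scs (I := X.I) (M := X.M)
  (Gm56.pb_iff_ci g.open_target h h' (fun x _ => Cyl58.ld_id x) fun y _ c => by
    rw [mfderiv_id]; rfl).1 (Mv17.pb_of_res (Mv17.res_of_pb g a' a) (mapsTo_id _) Rfl19.pb_id)

end ci

variable (γ : TG τ τ₁ τ₂) {M M' : MM μ τ} {M₁ : MM μ τ₁} {M₂ M₂' : MM μ τ₂}

theorem tm_i : (τ.nb γ.i).n.tm = γ.g.n.tm := congrArg (·.n.tm) γ.h

theorem tm_j : (τ₂.nb γ.j₂).n.tm = γ.k₂.tm := congrArg (·.n.tm) γ.h₂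

theorem s_i : (τ.nb γ.i).s = none := congrArg (·.s) γ.h

theorem s_j : (τ₂.nb γ.j₂).s = some false := congrArg (·.s) γ.h₂

theorem jk_i {s : ℝ} (h : s ∈ Ioo (0 : ℝ) 4) : s ∈ Jk (τ.nb γ.i).s := s_i γ ▸ h

theorem tm_ik (y) {s : ℝ} (h : s ∈ Ioo (0 : ℝ) 4) : γ.g.n.tm ((τ.nb γ.i).k (y, s)) = s :=
  tm_i γ ▸ NB.tm_k ((τ.nb γ.i).src.ge ⟨trivial, jk_i γ h⟩)

variable {γ}

theorem le_l (h : γ.GM M M₁ M₂) (h' : γ.GM M' M₁ M₂') : LE M.m M'.m (γ.g.n.tm ⁻¹' Iio 3) :=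
  fun x hx => by
    rcases lt_or_ge (γ.g.n.tm x) (3 / 2) with k | k
    · obtain ⟨p, hp, rfl⟩ := (img_l γ.g (by norm_num) (by norm_num)).ge k
      exact (h.l.symm.trans h'.l) p hp
    · exact le_band (h.t₁.symm.trans h'.t₁) x ((Nrm43.mem_U (s_i γ)).2
        (tm_i γ ▸ jm_none.2 ⟨by linarith, by linarith [show γ.g.n.tm x < 3 from hx]⟩))

variable {β : MB τ 1} {β₁ : MB τ₁ 0} {β₂ : MB τ₂ 0} {c : ℤ → MC μ β} {c₁ : MC μ β₁} {c₂ : ℤ → MC μ β₂}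
  (hM : ∀ n, γ.GM (c n).toMM c₁.toMM (c₂ n).toMM) (hT : Tw (fun n => (c₂ n).toMM) γ.j₂)
  (hL : LgE (c₁.ty γ.j₁).1)
include hM hT hL

theorem tw1 {d d₁ d₂} (hF : γ.GF β β₁ β₂ 0 Fin.elim0 Fin.elim0 0) (h₁ : c₁.Cl d₁) (h₂ : (c₂ 0).Cl d₂)
    (rl : γ.g.Rl d d₁) (rr : γ.g.Rr d d₂) : ∃ n, (c n).Cl d := by
  have := Sob92.scs (I := X.I) (M := X.M)
  obtain ⟨m, hm⟩ := Gm56.exists_rp (l := Fin 6) X.X.dim.le (by simp) (β.fr 0) d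
  obtain ⟨d₀, h0⟩ := Gm56.rp_cls (β.fr 0) (c 0).mon
  obtain ⟨a1, a2⟩ := (Emo56.cgl κ μ).cl γ 0 Fin.elim0 Fin.elim0 (c 0) c₁ (c₂ 0) 0 d₀ d₁ d₂ hF (hM 0)
    h0 h₁ h₂
  obtain ⟨u₁, i₁⟩ := ci_res hm h0 γ.g.l rl a1
  obtain ⟨u₂, i₂⟩ := ci_res hm h0 γ.g.r rr a2
  obtain ⟨g, hg⟩ := Gm56.CI.ratio (O := γ.g.n.tm ⁻¹' Ioo 0 4) (hm.on.mono (subset_univ _))
    ((c 0).mon.mono (subset_univ _)) (i₁.mono fun _ k => (mem_lt γ.g).2 k.2)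
    (i₂.mono fun _ k => (mem_rt γ.g).2 k.1)
  have mk : ∀ y, ∀ s ∈ Ioo (0 : ℝ) 4, (τ.nb γ.i).k (y, s) ∈ γ.g.n.tm ⁻¹' Ioo 0 4 := fun y s k =>
    mem_of_eq_of_mem (s := Ioo 0 4) (tm_ik γ y k) k
  have m2 : (2 : ℝ) ∈ Ioo (0 : ℝ) 4 := by norm_num
  have L : LgE ((c 0).ty γ.i).1 := (hM 0).t₁ ▸ hL
  obtain ⟨N, φ, f1, f2⟩ := exists_dq (cl := (c 0).cl γ.i) L (jk_i γ m2)
    fun y => ⟨(hg _ (mk y 2 m2)).1, (hg _ (mk y 2 m2)).2.1⟩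
  obtain ⟨ρ, hρ⟩ := Gm56.exists_slice (I := (τ.nb γ.i).e.A.Y.I) isOpen_Ioo ordConnected_Ioo m2
    (c := fun z => g ((τ.nb γ.i).k z)) fun z hz => ⟨(hg _ (mk z.1 z.2 hz.2)).1.comp z
      (Nrm43.sm_k _ ((τ.nb γ.i).src.ge ⟨trivial, jk_i γ hz.2⟩)), (hg _ (mk z.1 z.2 hz.2)).2.1⟩
  obtain ⟨-, w, w1, w2⟩ := hT (-N)
  have sr : ∀ x ∈ γ.g.n.tm ⁻¹' Ioi (5 / 2), x ∈ γ.g.r.target := fun x k =>
    (mem_rt γ.g).2 (lt_trans (by norm_num) k)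
  have le : ∀ n, ∀ x ∈ γ.g.n.tm ⁻¹' Ioi (5 / 2), (c n).m.p x = (c₂ n).m.p (γ.g.r.symm x) ∧
      (c n).m.r x = (c₂ n).m.r (γ.g.r.symm x) := fun n x k => by
    obtain ⟨p, hp, rfl⟩ := (img_r γ.g (r := 3 / 2) (by norm_num) (by norm_num)).ge
      (show 4 - 3 / 2 < γ.g.n.tm x by linarith [show 5 / 2 < γ.g.n.tm x from k])
    rw [show γ.g.r.symm (γ.g.r p) = p from γ.g.r.left_inv ((mem_r γ.g).2 (lt_trans (by norm_num) hp))]
    exact (hM n).r p hp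
  have j := (i₂.mono sr).trans ((w1.comp (f := γ.g.r.symm) (fun x k =>
    γ.g.r.contMDiffOn_invFun.contMDiffAt (γ.g.r.open_target.mem_nhds (sr x k))) (mapsTo_univ _ _)).of_eq
      (le 0) (le (-N)))
  obtain ⟨W, hW⟩ := ci_log (isOpen_Iio.preimage γ.g.n.cont) (isOpen_Ioi.preimage γ.g.n.cont)
    (by rw [← preimage_union, Iio_union_Ioi_of_lt (by norm_num), preimage_univ])
    ((i₁.mono fun _ k => (mem_lt γ.g).2 (lt_trans k (by norm_num))).of_eq (fun _ _ => ⟨rfl, rfl⟩)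
      (le_l (hM 0) (hM (-N)))) j
    (r := fun x => φ ((τ.nb γ.i).k.symm x).1 + ρ ((τ.nb γ.i).k.symm x)) fun x hx => by
      have m : γ.g.n.tm x ∈ Ioo (0 : ℝ) 4 := ⟨lt_trans (by norm_num) hx.2, lt_trans hx.1 (by norm_num)⟩
      have m' : x ∈ (τ.nb γ.i).k.target := (τ.nb γ.i).tgt.ge (jk_i γ (tm_i γ ▸ m))
      have s1 := Nrm43.sm_k' _ m'
      have e1 : ((τ.nb γ.i).k.symm x).2 = γ.g.n.tm x := tm_i γ ▸ NB.symm_snd m'
      have e2 := (τ.nb γ.i).k.right_inv m'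
      have e3 := hρ ((τ.nb γ.i).k.symm x) ⟨trivial, e1 ▸ m⟩
      refine ⟨((f1 _).comp x (contMDiffAt_fst.comp x s1)).add (e3.1.comp x s1), ?_⟩
      generalize (τ.nb γ.i).k.symm x = z at e1 e2 e3
      obtain ⟨y₂, y', b1, b2, b3⟩ := cst γ.h γ.h₂ (hM 0).t₂ z.1
      have e4 : γ.g.r.symm x = (τ₂.nb γ.j₂).k (y₂, z.2 - 4) := by
        rw [b3, ← e2, show (τ.nb γ.i).k z = _ from b2 z.2, ← γ.g.or y' z.2 (e1 ▸ m)]
        exact γ.g.r.left_inv (Mv17.g3_mr γ.g (z := (y', z.2)) (e1 ▸ m))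
      have e5 := w2 (y₂, z.2 - 4) ⟨trivial, s_j γ ▸ jm_in.2 (by linarith [show γ.g.n.tm x < 3 from hx.1])⟩
      rw [← e4, ← (le 0 x hx.2).1] at e5
      rw [f2, e2] at e3
      simp only [e5, (hg x m).2.2, e3.2, Matrix.smul_mul, Matrix.mul_smul, smul_smul,
        (i₁.un x ((mem_lt γ.g).2 m.2)).iso.left]
      rw [show ((c₂ 0).ec γ.j₂).u y₂ = _ from b1, zpow_neg]
      have : ((c 0).ec γ.i).u z.1 ^ N ≠ 0 := zpow_ne_zero N (gau_ne L.1 z.1)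
      congr 1
      push_cast
      rw [add_mul, Complex.exp_add]
      field_simp
  exact ⟨-N, hm.of_ci (c _).mon hW⟩

theorem tw2 {d} (h2 : γ.e.H2) (hP : Per (c₁.ty γ.j₁))
    (x1 : Ext2 γ.k₁ {x | ∃ j ≠ γ.j₁, (τ₁.nb j).s ≠ none ∧ x ∈ (τ₁.nb j).k.target}) (ho : τ₂.pout = none)
    (x2 : Ext2 γ.k₂ ∅) (n n' : ℤ) (h : (c n).Cl d) (h' : (c n').Cl d) : n = n' := by
  have := Sob92.scs (I := X.I) (M := X.M)
  obtain ⟨u, i⟩ := Rp.ci h h'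
  have o := (c n).mon.mono (subset_univ (γ.g.n.tm ⁻¹' Iio 3))
  obtain ⟨g, hg⟩ := Gm56.CI.ratio o ((c n').mon.mono (subset_univ _)) ((le_l (hM n) (hM n')).ci o)
    (i.mono (subset_univ _))
  have L : LgE ((c n).ty γ.i).1 := (hM n).t₁ ▸ hL
  have P : Per ((c n).ty γ.i) := (hM n).t₁ ▸ hP
  have m : (11 / 4 : ℝ) ∈ Ioo (0 : ℝ) 4 := by norm_num
  have mk : ∀ y, (τ.nb γ.i).k (y, 11 / 4) ∈ γ.g.n.tm ⁻¹' Iio 3 := fun y =>
    (tm_ik γ y m).trans_lt (by norm_num)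
  obtain ⟨N, q⟩ := exists_dq (cl := (c n).cl γ.i) L (jk_i γ m)
    fun y => ⟨(hg _ (mk y)).1, (hg _ (mk y)).2.1⟩
  obtain ⟨f, r, hf⟩ := ld γ h2 x1
  obtain ⟨φ, f1, f2⟩ := id q
  obtain rfl : N = 0 := deg0 (τ.std _) ((c n).std γ.i).ok P L.1
    (isOpen_Iio.preimage (τ.nb _).n.cont) (hf.ts (by norm_num) (ct_dn 2)
      (fun s k => s_i γ ▸ jm_none.2 ⟨by linarith [k.1], by linarith [k.2]⟩) fun s k => dn_hi k.le)
    hf.r0 (by rw [dn_hi le_rfl, dn_lo le_rfl]; norm_num) (J := Ioo 1 3) isOpen_Ioo ordConnected_Ioo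
    (fun s k => ⟨by linarith [k.1], by linarith [k.2]⟩)
    (fun s k => jk_i γ ⟨by linarith [k.1], by linarith [k.2]⟩) (fun _ k => k.2)
    (fun x k => ⟨(hg x (tm_i γ ▸ k)).1, (hg x (tm_i γ ▸ k)).2.1⟩) (by norm_num) f1 f2
  have t0 : (c₂ 0).ty γ.j₂ = (c n).ty γ.i := ((hT n).1 _).symm.trans (hM n).t₂
  obtain ⟨ψ, g1, g2⟩ := q.tr γ.h γ.h₂ t0 (w₂ := fun x => g (γ.g.r x)) (σ₂ := 11 / 4 - 4)
    fun y => congrArg g (γ.g.or y _ m)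
  obtain ⟨-, w, w1, w2⟩ := hT n
  obtain ⟨-, w', w1', w2'⟩ := hT n'
  have sr : γ.k₂.tm ⁻¹' Ioi (-(3 / 2)) ⊆ γ.g.r.source := fun _ k =>
    (mem_r γ.g).2 (lt_trans (by norm_num) k)
  obtain ⟨g', hg'⟩ := Gm56.CI.ratio ((c₂ 0).mon.mono (subset_univ _)) ((c₂ n').mon.mono (subset_univ _))
    (w1'.mono (subset_univ _)) ((w1.mono (subset_univ _)).trans ((i.comp (f := γ.g.r) (fun x k =>
      γ.g.r.contMDiffOn_toFun.contMDiffAt (γ.g.r.open_source.mem_nhds (sr k)))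
        (mapsTo_univ _ _)).of_eq (hM n).r.symm (hM n').r.symm))
  obtain ⟨f', r', r0, ts⟩ := rd γ h2 ho x2
  have L' : LgE ((c₂ 0).ty γ.j₂).1 := t0 ▸ L
  have P' : Per ((c₂ 0).ty γ.j₂) := t0 ▸ P
  refine sub_eq_zero.1 (deg0 (τ₂.std _) ((c₂ 0).std γ.j₂).ok P' L'.1
    (isOpen_Ioi.preimage (τ₂.nb _).n.cont) ts r0 (by norm_num) (J := Ioo (-(3 / 2)) (-1)) isOpen_Ioo
    ordConnected_Ioo (fun s k => ⟨by linarith [k.1], by linarith [k.2]⟩)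
    (fun s k => s_j γ ▸ lt_trans k.2 (by norm_num)) (fun _ k => k.1)
    (fun x k => ⟨(hg' x (tm_j γ ▸ k)).1, (hg' x (tm_j γ ▸ k)).2.1⟩) (s₀ := 11 / 4 - 4) (by norm_num)
    g1 fun y => ?_)
  obtain ⟨y₁, y', -, b2, b3⟩ := cst γ.h₂ γ.h t0.symm y
  have v : (y, (11 / 4 - 4 : ℝ)) ∈ (τ₂.nb γ.j₂).V (1 / 2) := ⟨trivial, s_j γ ▸ jm_in.2 (by norm_num)⟩
  have e1 : γ.g.r ((τ₂.nb γ.j₂).k (y, 11 / 4 - 4)) = (τ.nb γ.i).k (y₁, 11 / 4) := by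
    rw [b2, b3]; exact γ.g.or y' _ m
  have m' : (τ₂.nb γ.j₂).k (y, 11 / 4 - 4) ∈ γ.k₂.tm ⁻¹' Ioi (-(3 / 2)) := by
    rw [b2, mem_preimage, tm_k γ.k₂ y' (by norm_num)]; norm_num
  have e2 := (hg' _ m').2.2
  have e3 := (hg _ (mk y₁)).2.2
  rw [← e1] at e3
  rw [e3, show (c n).m.p _ = _ from ((hM n).r _ m').1, Matrix.smul_mul, (w1.un _ trivial).iso.left,
    w2 _ v, w2' _ v, smul_smul, smul_smul, show g _ = _ from g2 y] at e2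
  have := zpow_ne_zero n' (gau_ne L'.1 y)
  rw [zpow_sub₀ (gau_ne L'.1 y), eq_div_of_mul_eq this
    (smul_left_injective ℂ ((c₂ 0).mon.pc _ trivial).ne_zero e2).symm]
  simp only [zpow_zero, one_mul]
  ring

omit hM hT hL in
variable (κ μ) in
/-- **E-TW** -/
theorem tw : TwStmt κ μ := fun _ _ _ _ _ _ _ _ _ _ hF hM hT hL h₁ h₂ rl rr =>
  ⟨tw1 hM hT hL hF h₁ h₂ rl rr, tw2 hM hT hL⟩

end Crest.Agent.X212.Tw59
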