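import Crest.Agent.X212.Tw59.Deg
import Crest.Agent.X212.Lr83.Wl

/-!
# Row 212, GEO engine (helper59), E-TW + E-HOL, part 3: test forms on the two sides of a wall
-/

set_option autoImplicit false
set_option maxHeartbeats 400000
set_option linter.unusedSectionVars false
noncomputable section
open scoped Manifold ContDiff Topology
open MeasureTheory Set Function Filter Module

namespace Crest.Agent.X212.Tw59
open An Cyf70 Sw Flo2 Geo28 Met55 Sw87.Mo Pen22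
open Dr59 (Cl Dg pm dM ne0 SmAt psh)

variable {κ μ : Type} [Fintype κ] [DecidableEq κ] [Fintype μ] [DecidableEq μ] {X X₁ X₂ : M4}
  {τ : MT κ X} {τ₁ : MT κ X₁} {τ₂ : MT κ X₂} {b : NB κ X} {f : X.Fm} {r p q : ℝ} {χ : ℝ → ℝ}

/-- a test form on the left of the band `b` -/
structure LD (τ : MT κ X) (b : NB κ X) (f : X.Fm) (r : ℝ) : Prop where
  r0 : r ≠ 0
  sm : Dr59.Sm X.I univ f
  cl : Cl X.I 2 (b.n.tm ⁻¹' Iio 3) f
  z : b.Zf f r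
  z0 : ∀ i, (τ.nb i).s ≠ none → ∀ x ∈ (τ.nb i).U 0, f x = 0

variable (τ b) in
/-- a compact set -/
def Kq (q : ℝ) : Set X.M := {x | ∀ i, ((τ.nb i).s = some true → (τ.nb i).n.tm x ≤ 1) ∧
    ((τ.nb i).s = some false → -1 ≤ (τ.nb i).n.tm x)} ∩ b.n.tm ⁻¹' Iic q

theorem Kq_cpt : IsCompact (Kq τ b q) := (τ.cpt 1).inter_right (isClosed_Iic.preimage b.n.cont)

theorem LD.off (h : LD τ b f r) (h0 : ∀ s, q < s → χ s = 0) : ∀ x ∉ Kq τ b q, χ (b.n.tm x) • f x = 0 :=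
  fun x hx => by
    rcases not_and_or.1 hx with k | k
    · obtain ⟨i, k⟩ := not_forall.1 k
      rcases not_and_or.1 k with k | k <;> obtain ⟨hs, k⟩ := Classical.not_imp.1 k <;>
        rw [h.z0 i (by simp [hs]) x ((Nrm43.mem_U hs).2 ?_), smul_zero]
      exacts [jm_out.2 (by linarith [not_le.1 k]), jm_in.2 (by linarith [not_le.1 k])]
    · rw [h0 _ (not_le.1 k), zero_smul]

theorem LD.ts (h : LD τ b f r) (hq : q < 3) (ct : Ct χ p q) (sub : Icc p q ⊆ Jm b.s 0)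
    (h0 : ∀ s, q < s → χ s = 0) : Ts b (b.n.tm ⁻¹' Iio 3) f r χ p q :=
  ⟨h.cl, h.z, ct, sub, _, Kq_cpt, fun _ k => lt_of_le_of_lt k.2 hq, h.off h0⟩

theorem ct_dn (a : ℝ) : Ct (fun s => 1 - sT (2 * (s - a))) a (a + 1 / 2) :=
  (ct_up (φ := fun s => 2 * (s - a)) (by linarith) (by fun_prop) (fun _ _ _ => by linarith) (by simp)
    (by linarith)).dn

theorem dn_lo {a s : ℝ} (h : s ≤ a) : 1 - sT (2 * (s - a)) = 1 := by
  rw [show sT _ = 0 from Real.smoothTransition.zero_of_nonpos (by linarith), sub_zero]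

theorem dn_hi {a s : ℝ} (h : a + 1 / 2 ≤ s) : 1 - sT (2 * (s - a)) = 0 := by
  rw [show sT _ = 1 from Real.smoothTransition.one_of_one_le (by linarith), sub_self]

/-- **the test form on the left** -/
theorem ld (γ : TG τ τ₁ τ₂) (h2 : γ.e.H2)
    (hx : Ext2 γ.k₁ {x | ∃ j ≠ γ.j₁, (τ₁.nb j).s ≠ none ∧ x ∈ (τ₁.nb j).k.target}) :
    ∃ f r, LD τ (τ.nb γ.i) f r := by
  obtain ⟨f₀, a1, a2, a3⟩ := hx
  obtain ⟨f, r, b1, b2, b3, b4, -⟩ := Nrm43.nrm κ ⟨γ.e, some true, γ.k₁⟩ f₀ h2 a1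
  have c : Cl X.I 2 γ.g.l.target (psh γ.g.l f) :=
    (b1.pm ⟨fun x hx => γ.g.l.contMDiffOn_invFun.contMDiffAt (γ.g.l.open_target.mem_nhds hx),
      mapsTo_univ _ _⟩).congr γ.g.l.open_target fun x hx => indicator_of_mem hx _
  have sg := (ct_dn 3).smT (b := ⟨γ.e, none, γ.g.n⟩) fun s k => ⟨by linarith [k.1], by linarith [k.2]⟩
  rw [γ.h]
  refine ⟨(fun x => 1 - sT (2 * (γ.g.n.tm x - 3))) • psh γ.g.l f, r, fun k => a3 (b4 k),
    fun x _ => smAt_of (K := γ.g.n.tm ⁻¹' Iic (7 / 2)) (isClosed_Iic.preimage γ.g.n.cont)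
      (fun _ k => (mem_lt γ.g).2 (lt_of_le_of_lt k (by norm_num))) (c.sm.fsmul fun x _ => sg x)
      (fun x k => by rw [Pi.smul_apply', dn_hi (by linarith [show 7 / 2 < γ.g.n.tm x from not_le.1 k]),
        zero_smul]) x,
    (c.mono fun _ k => (mem_lt γ.g).2 (lt_trans k (by norm_num))).congr
      (isOpen_Iio.preimage γ.g.n.cont) fun x k => by rw [Pi.smul_apply', dn_lo (le_of_lt k), one_smul],
    fun x hx a a' => Eq.trans ?_ (b2 x ⟨trivial, jm_out.2 (jm_none.1 hx.2).1⟩ a a'), fun i hi x hx => ?_⟩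
  · have m : x.2 ∈ Ioo (0 : ℝ) 4 := jm_sub _ zero_le_one hx.2
    have s1 := Nrm43.sm_k ⟨γ.e, some true, γ.k₁⟩ (x := x) (γ.k₁.src.ge ⟨trivial, m.1⟩)
    have s2 : γ.k₁.k x ∈ γ.g.l.source := (mem_l γ.g).2 ((tm_k γ.k₁ x.1 m.1).trans_lt m.2)
    refine congrArg (fun w => R208.F.evA _ 2 w _) ?_
    refine (Dr59.pm_congr (g := γ.g.l ∘ γ.k₁.k) (b := psh γ.g.l f) (eventually_of_mem
      ((isOpen_univ.prod isOpen_Ioo).mem_nhds ⟨trivial, m⟩) fun z hz => (γ.g.ol z.1 z.2 hz.2).symm)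
      ?_).trans ((Dr59.pm_comp ((γ.g.l.contMDiffOn_toFun.contMDiffAt
        (γ.g.l.open_source.mem_nhds s2)).mdifferentiableAt ne0) (s1.mdifferentiableAt ne0)).symm.trans
      (Dr59.pm_congr_right (Dr59.pm_psh γ.g.l s2 f)))
    rw [Pi.smul_apply', dn_lo ((tm_k γ.g.n x.1 m).trans_le (by linarith [(jm_none.1 hx.2).2])), one_smul]
  · have n : i ≠ γ.i := fun e => hi (by rw [e, γ.h])
    have m := (τ.nb i).U_mono (d' := 1 / 4) (by norm_num) hx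
    rw [Pi.smul_apply', Dr59.psh_eq_zero γ.g.l (S := {y ∈ γ.g.l.source | f y ≠ 0})
      (fun y k k' => by_contra fun e => k' ⟨k, e⟩) ?_, smul_zero]
    rintro ⟨y, ⟨k1, k2⟩, rfl⟩
    by_cases e : ∃ j, γ.r₁ j i
    · obtain ⟨j, e⟩ := e
      obtain ⟨x', c1, c2⟩ := Lr83.cor_ex (γ.c₁ _ _ e).2.2 m
      have c3 := (τ₁.nb j).U_sub (by norm_num) c1
      have q := disjoint_left.1 (τ₁.dj (γ.c₁ _ _ e).1) c3
      rw [γ.h₁] at q
      obtain rfl := γ.g.l.injOn k1 ((mem_l γ.g).2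
        ((not_lt.1 fun h => q (γ.k₁.tgt.ge h)).trans_lt four_pos)) c2
      obtain ⟨n', hb, -⟩ := (γ.c₁ _ _ e).2.2
      exact k2 ((b3 _ fun k => q (NB.U_sub _ (by norm_num) k)).trans
        (a2 _ ⟨j, (γ.c₁ _ _ e).1, fun k => hi ((congrArg (·.s) hb).trans k), c3⟩))
    · exact Lr83.oth_l γ i n (not_exists.1 e) y k1 m

/-- **the test form on the right** -/
theorem rd (γ : TG τ τ₁ τ₂) (h2 : γ.e.H2) (ho : τ₂.pout = none) (hx : Ext2 γ.k₂ ∅) :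
    ∃ f r, r ≠ 0 ∧ Ts (τ₂.nb γ.j₂) ((τ₂.nb γ.j₂).n.tm ⁻¹' Ioi (-(3 / 2))) f r
      (fun s => sT (4 * (s + 11 / 8))) (-(11 / 8)) (-(9 / 8)) := by
  obtain ⟨f₀, a1, -, a3⟩ := hx
  obtain ⟨f, r, b1, b2, -, b4, -⟩ := Nrm43.nrm κ ⟨γ.e, some false, γ.k₂⟩ f₀ h2 a1
  have c : IsCompact ((τ₂.nb γ.j₂).n.tm ⁻¹' Ici (-(11 / 8))) := by
    refine (τ₂.cpt (11 / 8)).of_isClosed_subset (isClosed_Ici.preimage (τ₂.nb _).n.cont)
      fun x k i => ⟨fun e => ?_, fun e => ?_⟩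
    · simpa [ho, γ.p3.1] using (τ₂.out i).1 e
    · obtain rfl := Option.some.inj (((τ₂.inn i).1 e).symm.trans (Lr83.pin₂ γ))
      exact k
  rw [γ.h₂] at c ⊢
  exact ⟨f, r, fun k => a3 (b4 k), b1.mono (subset_univ _), b2,
    ct_up (φ := fun s => 4 * (s + 11 / 8)) (by norm_num) (by fun_prop) (fun _ _ _ => by linarith)
      (by norm_num) (by norm_num), fun s k => jm_in.2 (by linarith [k.2]), _, c,
    fun x k => (by norm_num : (-(3 / 2) : ℝ) < -(11 / 8)).trans_le k, fun x k => by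
      rw [show sT _ = 0 from Real.smoothTransition.zero_of_nonpos 
        (by linarith [show γ.k₂.tm x < -(11 / 8) from not_le.1 k]), zero_smul]⟩

/-! ### degrees -/

/-- `w` has the degree `n` on the slice `s` -/
def Dq (b : NB κ X) (ec : EC (μ ⊕ μ) b.e.eg) (w : X.M → ℂ) (s : ℝ) (n : ℤ) : Prop :=
  ∃ φ : b.e.A.Y.M → ℝ, An.Sm b.e.A.Y.I φ ∧
    ∀ y, w (b.k (y, s)) = ec.u y ^ n * Complex.exp (φ y * Complex.I)

variable {ec : EC (μ ⊕ μ) b.e.eg} {cl : ec.L}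

theorem exists_dq (h : LgE (bT b ec cl).1) {w : X.M → ℂ} {s : ℝ} (hs : s ∈ Jk b.s)
    (hw : ∀ y, Pj41.FSm X.I w (b.k (y, s)) ∧ ‖w (b.k (y, s))‖ = 1) : ∃ n, Dq b ec w s n :=
  h.2 (fun y => w (b.k (y, s))) ⟨fun y => (hw y).1.comp y
    ((Nrm43.sm_k b (b.src.ge ⟨trivial, hs⟩)).comp y (contMDiffAt_id.prodMk contMDiffAt_const)),
    fun y => (hw y).2⟩

section tr
variable {b₂ : NB κ X₂} {e : ET κ} {s s₂ : Option Bool} {n : Nc e.A X (Jk s)} {n₂ : Nc e.A X₂ (Jk s₂)}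
  (h : b = ⟨e, s, n⟩) (h₂ : b₂ = ⟨e, s₂, n₂⟩) {ec₂ : EC (μ ⊕ μ) b₂.e.eg} {cl₂ : ec₂.L}
  (hT : bT b₂ ec₂ cl₂ = bT b ec cl)
include h h₂ hT

theorem Dq.tr {w : X.M → ℂ} {w₂ : X₂.M → ℂ} {σ σ₂ : ℝ} {m : ℤ}
    (q : ∀ y, w₂ (n₂.k (y, σ₂)) = w (n.k (y, σ))) (d : Dq b ec w σ m) : Dq b₂ ec₂ w₂ σ₂ m := by
  subst h h₂; cases hT
  exact d.imp fun φ k => ⟨k.1, fun y => (q y).trans (k.2 y)⟩

theorem cst (y : b.e.A.Y.M) : ∃ y₂ y', ec₂.u y₂ = ec.u y ∧ (∀ σ, b.k (y, σ) = n.k (y', σ)) ∧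
    ∀ σ, b₂.k (y₂, σ) = n₂.k (y', σ) := by
  subst h h₂; cases hT
  exact ⟨y, y, rfl, fun _ => rfl, fun _ => rfl⟩

end tr

theorem le_band {M M' : MM μ τ} {i : τ.N} (h : M.ty i = M'.ty i) :
    Gm56.LE M.m M'.m ((τ.nb i).U (1 / 2)) := fun x hx => by
  have k : ∀ {ec ec' : EC (μ ⊕ μ) (τ.nb i).e.eg} {cl cl'}, bT _ ec cl = bT _ ec' cl' →
      ec.m cl = ec'.m cl' := fun e => by cases e; rfl
  have a := M.lit i _ (NB.symm_mem (by norm_num) hx)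
  have a' := M'.lit i _ (NB.symm_mem (by norm_num) hx)
  rw [(τ.nb i).k.right_inv ((τ.nb i).U_sub (by norm_num) hx)] at a a'
  rw [k h] at a
  exact ⟨Line51.rl_injective (a'.1.trans a.1.symm),
    funext fun c => Line51.rl_injective ((a'.2 c).trans (a.2 c).symm)⟩

end Crest.Agent.X212.Tw59
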