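import Crest.Agent.X212.Tw59.Per
import Crest.Agent.X212.Dr9.Hol

/-!
# Row 212, GEO engine (helper59), E-TW + E-HOL, part 2: degrees of circle valued functions
-/

set_option autoImplicit false
set_option maxHeartbeats 400000
set_option linter.unusedSectionVars false
noncomputable section
open scoped Manifold ContDiff Topology
open MeasureTheory Set Function Filter Module

namespace Crest.Agent.X212.Tw59
open An Cyf70 Sw Flo2 Geo28 Met55 Sw87.Mo
open Crest.Agent.R208.F (Ext)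
open Dr59 (Cl Dg pm dM ne0 SmAt)
open Num57 (k1)
open Pj41 (FSm)
open Pb50 (th LG th_mul th_star star_mul_one)

section ag
variable {E : Type} [NormedAddCommGroup E] [NormedSpace ℝ E] [FiniteDimensional ℝ E]
  {H : Type} [TopologicalSpace H] {I : ModelWithCorners ℝ E H} [I.Boundaryless]
  {M : Type} [TopologicalSpace M] [ChartedSpace H M] [IsManifold I ∞ M] {w u v : M → ℂ} {O : Set M}

variable (I) in
/-- the angular form -/
def ag (w : M → ℂ) : M → Ext E := Line51.th I fun x => Matrix.of fun _ _ : Unit => w x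

theorem cl_ag (hO : IsOpen O) (h : ∀ x ∈ O, FSm I w x ∧ ‖w x‖ = 1) : Cl I 1 O (ag I w) :=
  ⟨fun x hx => Line51.smAt_th fun _ _ => (h x hx).1, Line51.dg_th _, fun x hx =>
    Line51.dM_th_unit (fun _ _ => (h x hx).1) ((hO.eventually_mem hx).mono fun y hy => by
      ext; simpa [Matrix.mul_apply] using star_mul_one (h y hy).2)⟩

theorem gau_mul (hu : Gau I u) (hv : Gau I v) : Gau I fun y => u y * v y :=
  ⟨fun y => Pj41.FSm.mul' (hu.1 y) (hv.1 y), fun y => by rw [norm_mul, hu.2, hv.2, mul_one]⟩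

theorem gau_exp {χ : M → ℝ} (h : An.Sm I χ) : Gau I fun y => Complex.exp (χ y * Complex.I) :=
  ⟨fun y => Gm56.fsm_cexp (h y), fun _ => Gm56.norm_cexp _⟩

theorem gau_ne (hu : Gau I u) (y : M) : u y ≠ 0 := fun h => by simpa [h] using hu.2 y

variable [MeasurableSpace E] [BorelSpace E] [MeasurableSpace M] {ι : Type} [Fintype ι]

theorem gau_star (hu : Gau I u) : Gau I fun y => star (u y) :=
  ⟨fun y => Pb50.sa_star (hu.1 y), fun y => by rw [norm_star, hu.2]⟩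

theorem gau_zpow (F : Pre I M ι) (hu : Gau I u) (n : ℤ) : Gau I (fun y => u y ^ n) ∧
    ∀ k y, th F (fun y => u y ^ n) k y = n * th F u k y := by
  have h0 := gau_ne hu
  induction n with
  | zero => simpa only [zpow_zero, Pb50.th_one, Int.cast_zero, zero_mul, implies_true, and_true] using
      ⟨contMDiff_const, fun _ => norm_one⟩
  | succ n ih =>
    simp only [zpow_add_one₀ (h0 _)]
    exact ⟨gau_mul ih.1 hu, fun k y => by
      rw [th_mul _ (.of_gau ih.1 y) (.of_gau hu y), ih.2]; push_cast; ring⟩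
  | pred n ih =>
    simp only [zpow_sub_one₀ (h0 _), fun y => (eq_inv_of_mul_eq_one_left (star_mul_one (hu.2 y))).symm]
    exact ⟨gau_mul ih.1 (gau_star hu), fun k y => by
      rw [th_mul _ (.of_gau ih.1 y) (.of_gau (gau_star hu) y), ih.2, th_star _ (hu.1 y)]
      push_cast; ring⟩

end ag

/-! ### cut-offs -/

theorem ct_up {φ : ℝ → ℝ} {p q : ℝ} (h : p ≤ q) (hφ : ContDiff ℝ ∞ φ) (hm : Monotone φ) (h0 : φ p ≤ 0)
    (h1 : 1 ≤ φ q) : Ct (fun s => sT (φ s)) p q := by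
  refine ⟨h, Real.smoothTransition.contDiff.comp hφ, fun s hs => ?_,
    .inl fun s => (Real.smoothTransition.monotone.comp hm).deriv_nonneg⟩
  rcases not_and_or.1 hs with k | k
  · exact ⟨0, (eventually_lt_nhds (not_le.1 k)).mono fun t ht =>
      Real.smoothTransition.zero_of_nonpos ((hm ht.le).trans h0)⟩
  · exact ⟨1, (eventually_gt_nhds (not_le.1 k)).mono fun t ht =>
      Real.smoothTransition.one_of_one_le (h1.trans (hm ht.le))⟩

theorem Ct.dn {χ : ℝ → ℝ} {p q : ℝ} (h : Ct χ p q) : Ct (fun s => 1 - χ s) p q :=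
  ⟨h.le, contDiff_const.sub h.sm, fun s hs => (h.cst s hs).elim fun c hc =>
    ⟨1 - c, hc.mono fun t ht => congrArg (1 - ·) ht⟩, by
      simp only [deriv_const_sub, neg_nonneg, neg_nonpos]; exact h.mon.symm⟩

/-! ### the period of a circle valued function -/

variable {κ μ : Type} [Fintype κ] [DecidableEq κ] [Fintype μ] [DecidableEq μ] {X : M4}

section en
variable {lam ν : Type} [Fintype lam] [Fintype ν] [DecidableEq ν] {e : En3 κ lam ν} {u v : e.Y.M → ℂ}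

variable (e) in
/-- the period -/
def pe (u : e.Y.M → ℂ) : ℝ := ∫ y, 4 * ∑ k, e.ζ y (none, some k) * th e.D.F.toPre u k y ∂e.D.F.μ

theorem pe_eq (he : e.OK) (hu : Gau e.Y.I u) {χ : e.Y.M → ℝ} (hχ : An.Sm e.Y.I χ) (n : ℤ) :
    pe e (fun y => u y ^ n * Complex.exp (χ y * Complex.I)) = n * pe e u := by
  have g := gau_zpow e.D.F.toPre hu n
  simp only [pe, fun k y => th_mul e.D.F.toPre (.of_gau g.1 y) (.of_gau (gau_exp hχ) y) k, g.2,
    fun k y => Dr9.th_exp e.D.F.toPre (hχ y) k, mul_add, Finset.sum_add_distrib]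
  rw [integral_add (Dr9.int_ζ he (a := fun k y => n * th e.D.F.toPre u k y) fun k y =>
    Wz78.SA.mul contMDiffAt_const (Pb50.sa_th _ (hu.1 y) k))
    (Dr9.int_ζ he fun k => e.D.F.sm_D hχ k), integral_const_mul 4 fun y => ∑ k, _ * e.D.F.D k _ y,
    he.clζ χ hχ, mul_zero, add_zero]
  simp only [mul_left_comm _ (n : ℝ), ← Finset.mul_sum, integral_const_mul]

theorem hol_act (hu : Gau e.Y.I u) : En3.hol (En3.YC.act u (⟨0, 0⟩ : e.YC)) = -pe e u := by
  rw [pe, ← integral_neg]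
  refine integral_congr_ae (.of_forall fun y => ?_)
  simp only [← mul_neg, ← Finset.sum_neg_distrib]
  refine congrArg _ (Finset.sum_congr rfl fun k _ => congrArg _ ((zero_sub _).trans ?_))
  exact congrArg (fun t => -(star (u y) * t).im) (congrFun (D_some_fst e.D.F.toPre hu.1 k) (y, 0))

end en

variable {b : NB κ X}

/-- the type of a band -/
abbrev bT (b : NB κ X) (ec : EC (μ ⊕ μ) b.e.eg) (cl : ec.L) : Ty κ L0 (μ ⊕ μ) := ⟨⟨b.e.eg, ec⟩, cl⟩

variable {ec : EC (μ ⊕ μ) b.e.eg} {cl : ec.L}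

theorem zo_of (h : (bT b ec cl).en.OK) : ZO b.e := ⟨h.sζ, fun y k => by
  have hB : b.e.D.B.OK (IC b.e.A.Y.I) := h.cyl.B
  have e : ∀ s, ∑ t, b.e.D.B.sd (y, 0) s t * b.e.ζ y t = b.e.ζ y s := fun s =>
    (Sep15.S.idx_ap _ _ _).symm.trans (congrArg (· s) (h.pζ y))
  have e' : ∑ t, b.e.D.B.st (y, 0) (none, k) t * b.e.ζ y t = b.e.ζ y (none, k) := by
    rw [← e, ← Finset.sum_congr rfl fun t _ => congrArg _ (e t)]
    simp only [Finset.mul_sum, ← mul_assoc]
    rw [Finset.sum_comm]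
    exact Finset.sum_congr rfl fun t _ => by rw [← Finset.sum_mul, Wz78.st_sd hB]
  rw [← e', Fintype.sum_prod_type, Finset.mul_sum]
  refine Finset.sum_congr rfl fun c _ => ?_
  rw [Finset.mul_sum]
  exact Finset.sum_congr rfl fun d _ => by
    rw [show b.e.D.B.st (y, 0) (none, k) (c, d) = b.e.D.o none k c d y / 2 from rfl]; ring⟩

theorem hs_ag {w : X.M → ℂ} {s : ℝ} (hs' : s ∈ Jk b.s) (hw : ∀ y, FSm X.I w (b.k (y, s))) :
    hs b.e (pm (IC b.e.A.Y.I) X.I b.k (ag X.I w)) s = pe (bT b ec cl).en fun y => w (b.k (y, s)) := by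
  refine integral_congr_ae (.of_forall fun y => congrArg _ (Finset.sum_congr rfl fun k _ =>
    congrArg _ ?_))
  have h1 := Nrm43.sm_k b (x := (y, s)) (b.src.ge ⟨trivial, hs'⟩)
  rw [k1, ag, Line51.pm_th (u := fun x => Matrix.of fun _ _ : Unit => w x) (φ := b.k)
    (J := IC b.e.A.Y.I) (fun _ _ => hw y) (h1.mdifferentiableAt ne0), Line51.th, Num57.e1_io,
    Line51.tl_eq_sum]
  simp only [Finset.univ_unique, Finset.sum_singleton, Matrix.of_apply]
  exact congrArg (fun t => (star (w (b.k (y, s))) * t).im)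
    (D_some_at b.e.D.F.toPre (((hw y).comp _ h1).mdifferentiableAt ne0) k)

/-- a test form for the band -/
structure Ts (b : NB κ X) (O : Set X.M) (f : X.Fm) (r : ℝ) (χ : ℝ → ℝ) (p q : ℝ) : Prop where
  cl : Cl X.I 2 O f
  z : b.Zf f r
  ct : Ct χ p q
  sub : Icc p q ⊆ Jm b.s 0
  cp : ∃ K, IsCompact K ∧ K ⊆ O ∧ ∀ x ∉ K, χ (b.n.tm x) • f x = 0

/-- **a circle valued function on `O` has degree zero on the band** -/
theorem deg0 (he : b.e.Std) (ho : (bT b ec cl).en.OK) (hP : Per (bT b ec cl)) (hu : Gau b.e.A.Y.I ec.u)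
    {O : Set X.M} (hO : IsOpen O) {f : X.Fm} {r p q : ℝ} {χ : ℝ → ℝ} (h : Ts b O f r χ p q)
    (hr : r ≠ 0) (hχ : χ q ≠ χ p) {J : Set ℝ} (j1 : IsOpen J) (j2 : OrdConnected J) (j3 : Icc p q ⊆ J)
    (j4 : J ⊆ Jk b.s) (j5 : b.n.tm ⁻¹' J ⊆ O) {w : X.M → ℂ} (hw : ∀ x ∈ O, FSm X.I w x ∧ ‖w x‖ = 1)
    {s₀ : ℝ} (h0 : s₀ ∈ J) {n : ℤ} {φ : b.e.A.Y.M → ℝ} (hφ : An.Sm b.e.A.Y.I φ)
    (e : ∀ y, w (b.k (y, s₀)) = ec.u y ^ n * Complex.exp (φ y * Complex.I)) : n = 0 := by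
  obtain ⟨K, k1, k2, k3⟩ := h.cp
  have c := cl_ag hO hw
  have m : ∀ z ∈ (univ : Set b.e.A.Y.M) ×ˢ J, b.k z ∈ O := fun z hz => j5 (by
    show b.n.tm (b.k z) ∈ J
    rw [NB.tm_k (b.src.ge ⟨trivial, j4 hz.2⟩)]; exact hz.2)
  obtain ⟨s, m1, e1⟩ := per he (zo_of ho) k1 k2 h.cl c.sm c.dg h.z h.ct h.sub
    ((preimage_mono j3).trans j5) k3
  obtain ⟨ρ, hρ⟩ := Gm56.exists_slice (I := b.e.A.Y.I) j1 j2 h0 (c := fun z => w (b.k z)) fun z hz =>
    ⟨(hw _ (m z hz)).1.comp z (Nrm43.sm_k b (b.src.ge ⟨trivial, j4 hz.2⟩)), (hw _ (m z hz)).2⟩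
  have e2 : (fun y => w (b.k (y, s))) = fun y => ec.u y ^ n *
      Complex.exp ((φ y + ρ (y, s) : ℝ) * Complex.I) := funext fun y => by
    rw [(hρ (y, s) ⟨trivial, j3 m1⟩).2, e, mul_assoc, ← Complex.exp_add]; push_cast; ring_nf
  have s2 : An.Sm b.e.A.Y.I fun y => φ y + ρ (y, s) := fun y => (hφ y).add
    ((hρ (y, s) ⟨trivial, j3 m1⟩).1.comp y (contMDiffAt_id.prodMk contMDiffAt_const))
  rw [((hs_ag (ec := ec) (cl := cl) (j4 (j3 m1)) fun y => (hw _ (m _ ⟨trivial, j3 m1⟩)).1).trans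
    (congrArg _ e2)).trans (pe_eq ho hu s2 n),
    Int54.integ_congr (b := 0) fun x => ?_, Int54.integ_zero] at e1
  · have := (hol_act (e := (bT b ec cl).en) hu).symm.trans_ne hP
    simpa [hr, sub_ne_zero.2 hχ, neg_ne_zero.1 this] using e1
  · by_cases hx : x ∈ O
    · rw [Pi.smul_apply', Pi.mul_apply, c.cl x hx, zero_mul, smul_zero, Pi.zero_apply]
    · rw [Pi.smul_apply', Pi.mul_apply, ← mul_smul_comm, k3 x fun k => hx (k2 k), mul_zero,
        Pi.zero_apply]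

end Crest.Agent.X212.Tw59
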