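import Crest.Agent.X212.Nrm43.Nrm
import Crest.Agent.X212.Num57.Cof
import Mathlib.MeasureTheory.Integral.IntervalIntegral.MeanValue

/-!
# Row 212, GEO engine (helper59), E-TW + E-HOL, part 1: periods on a band

`hs e α s` : the period of the one-form `α` on the slice `s`; `per` : Stokes' formula.
-/

set_option autoImplicit false
set_option maxHeartbeats 400000
set_option linter.unusedSectionVars false
noncomputable section
open scoped Manifold ContDiff Topology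
open MeasureTheory Set Function Filter Module

namespace Crest.Agent.X212.Tw59
open An Cyf70 Sw Flo2 Geo28 Met55 Sw87.Mo
open Crest.Agent.R208.F (Ext)
open Crest.Agent.R208.FI (IsDeg)
open Dr59 (Cl Dg pm dM df ne0 SmAt)
open Int54 (Ori rat oc volF integ tp)
open Num57 (k1 k2 ee)
open Orx52 (pr oR)

section pt
variable {E : Type} [NormedAddCommGroup E] [NormedSpace ℝ E] [FiniteDimensional ℝ E]
  [MeasurableSpace E] [BorelSpace E]
  {H : Type} [TopologicalSpace H] {I : ModelWithCorners ℝ E H} [I.Boundaryless]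
  {M : Type} [TopologicalSpace M] [ChartedSpace H M] [IsManifold I ∞ M]
  [MeasurableSpace M] [BorelSpace M] [SecondCountableTopology M] {ι : Type} [Fintype ι]

theorem vo_oc (F : Fr I M ι) (h4 : finrank ℝ E = 4) {o : M → Ext E} (ho : Ori I o) (x : M) :
    Num57.Vo (fun a b => F.P a b x) fun a b c d => oc F.e (volF o F.e) a b c d x :=
  ⟨fun _ _ _ _ => Int54.oc_12 .., fun _ _ _ _ => Int54.oc_23 .., fun _ _ _ _ => Int54.oc_34 ..,
    fun _ _ _ _ => Int54.oc_P .., (ho.unit_vol F.toPre).oc_nm x h4⟩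

/-- the product of two two-forms in components -/
theorem rat_mul (F : Fr I M ι) (h4 : finrank ℝ E = 4) {o : M → Ext E} (ho : Ori I o) {x : M}
    {u : M → Ext E} (hu : IsDeg 2 (u x)) (v : M → Ext E) : rat (volF o F.e) (u * v) x =
      1 / 4 * ∑ a, ∑ b, ∑ c, ∑ d, oc F.e (volF o F.e) a b c d x * (k2 F u a b x * k2 F v c d x) := by
  refine Eq.trans ?_ ((vo_oc F h4 ho x).ph_mul (Num57.cf F x) hu (v x))
  rw [(ho.unit_vol F.toPre).rat_oc x h4]
  simp only [Int54.oc_apply (v := u * v)]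
  rfl

theorem cf_k2 (F : Fr I M ι) (f : M → Ext E) (a b : ι) (x : M) :
    Int54.cf F.e 2 f ![a, b] x = k2 F f a b x :=
  congrArg (R208.F.evA E 2 (f x)) (funext fun i => by fin_cases i <;> rfl)

end pt

variable {κ : Type} [Fintype κ] [DecidableEq κ] {X : M4}

/-- `ζ` is smooth and self-dual -/
structure ZO (e : ET κ) : Prop where
  sm : Sm e.A.Y.I e.ζ
  st : ∀ y k, ∑ c, ∑ d, e.D.o none k c d y * e.ζ y (c, d) = 2 * e.ζ y (none, k)

/-- the density of the period -/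
def pd (e : ET κ) (α : e.A.Y.M × ℝ → Ext (e.A.Y.E × ℝ)) (x : e.A.Y.M × ℝ) : ℝ :=
  4 * ∑ k, e.ζ x.1 (none, some k) * k1 e.D.Z α (some k) x

/-- the period -/
def hs (e : ET κ) (α : e.A.Y.M × ℝ → Ext (e.A.Y.E × ℝ)) (s : ℝ) : ℝ := ∫ y, pd e α (y, s) ∂e.D.F.μ

theorem ZO.c {e : ET κ} (h : ZO e) (s : Option κ × Option κ) : Continuous fun y => e.ζ y s :=
  (PiLp.continuous_apply 2 _ s).comp h.sm.continuous

theorem pd_c {e : ET κ} (h : ZO e) {α : e.A.Y.M × ℝ → Ext (e.A.Y.E × ℝ)} {x : e.A.Y.M × ℝ}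
    (hα : SmAt (IC e.A.Y.I) α x) : ContinuousAt (pd e α) x :=
  continuousAt_const.mul (tendsto_finsetSum _ fun k _ => ((h.c _).fst'.continuousAt.mul
    (Num57.sa_k1 e.D.Z hα (some k)).continuousAt :))

theorem dim4 (e : ET κ) : finrank ℝ (e.A.Y.E × ℝ) = 4 := by
  rw [finrank_prod, e.A.Y.dim, finrank_self]

theorem ori_e (e : ET κ) : Ori (IC e.A.Y.I) (pr e.A.o oR) := Orx52.ori_pr e.A.ori Orx52.ori_oR

theorem alg {D A : Option κ → ℝ} {S : Option κ → Option κ → ℝ} {z : κ → ℝ} (d1 : ∀ a, D (some a) = 0)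
    (z1 : ∀ k, S none (some k) = z k) (z2 : ∀ k, S (some k) none = -z k) :
    ∑ a, ∑ b, (D a * A b - D b * A a) * S a b = 2 * D none * ∑ k, z k * A (some k) := by
  simp only [Fintype.sum_option, d1, z1, z2, sub_self, zero_mul, Finset.sum_const_zero, zero_add,
    add_zero, ← Finset.sum_add_distrib, Finset.mul_sum]
  exact Finset.sum_congr rfl fun k _ => by ring

theorem rat_cyl {e : ET κ} (he : e.Std) (hz : ZO e) {α f : e.A.Y.M × ℝ → Ext (e.A.Y.E × ℝ)}
    {x : e.A.Y.M × ℝ} {r : ℝ} {χ : ℝ → ℝ} (hχ : ContDiff ℝ ∞ χ) (hα : IsDeg 1 (α x))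
    (hf : ∀ a a', k2 e.D.Z f a a' x = if a.isSome ∧ a'.isSome then r * e.ζ x.1 (a, a') else 0) :
    rat (volF (pr e.A.o oR) e.D.Z.e) (df (IC e.A.Y.I) (fun z => χ z.2) * α * f) x = r / 4 * (deriv χ x.2 * pd e α x) := by
  have B := he.ok.B
  have o1 : ∀ a b, e.D.o none a none b x.1 = 0 := fun a b => by
    linarith [show e.D.o none a none b x.1 = -e.D.o a none none b x.1 from B.o12 _ _ _ _ x,
      show e.D.o a none none b x.1 = -e.D.o a none none b x.1 from B.o23 _ _ _ _ x]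
  have o2 : ∀ a b, e.D.o none a b none x.1 = 0 := fun a b => by
    linarith [show e.D.o none a b none x.1 = -e.D.o none a none b x.1 from B.o34 _ _ _ _ x, o1 a b]
  have o3 : ∀ a b c, e.D.o a none b c x.1 = -e.D.o none a b c x.1 := fun a b c => B.o12 _ _ _ _ x
  have d0 : e.D.Z.D none (fun z => χ z.2) x = deriv χ x.2 := congrFun (D_none_snd _ hχ) x
  have d1 : ∀ a, e.D.Z.D (some a) (fun z => χ z.2) x = 0 := fun a => congrFun (D_some_snd _ hχ a) x
  have u : ∀ a b, k2 e.D.Z (df (IC e.A.Y.I) (fun z => χ z.2) * α) a b x =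
      e.D.Z.D a (fun z => χ z.2) x * k1 e.D.Z α b x - e.D.Z.D b (fun z => χ z.2) x * k1 e.D.Z α a x :=
    fun a b => Num57.e2_io_mul _ _ _ _
  have z : ∀ k, ∑ c, ∑ d, e.D.o none k c d x.1 * k2 e.D.Z f c d x = r * (2 * e.ζ x.1 (none, k)) :=
    fun k => by
      rw [← hz.st, Finset.mul_sum]
      refine Finset.sum_congr rfl fun c _ => ?_
      rw [Finset.mul_sum]
      refine Finset.sum_congr rfl fun d _ => ?_
      rw [hf]
      cases c <;> cases d <;> simp [o1, o2]; ring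
  have hu : IsDeg 2 ((df (IC e.A.Y.I) (fun z : e.A.Y.M × ℝ => χ z.2) * α) x) := by
    rw [Pi.mul_apply]; exact R208.T.isDeg_mul (Dr59.isDeg_io _) hα
  rw [rat_mul e.D.Z (dim4 e) (ori_e e) hu f]
  have w : ∀ a b, ∑ c, ∑ d, oc e.D.Z.e (volF (pr e.A.o oR) e.D.Z.e) a b c d x *
      (k2 e.D.Z (df (IC e.A.Y.I) (fun z => χ z.2) * α) a b x * k2 e.D.Z f c d x) =
      k2 e.D.Z (df (IC e.A.Y.I) (fun z => χ z.2) * α) a b x *
        ∑ c, ∑ d, e.D.o a b c d x.1 * k2 e.D.Z f c d x := fun a b => by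
    simp only [Finset.mul_sum, he.o _ _ _ _ x]
    exact Finset.sum_congr rfl fun c _ => Finset.sum_congr rfl fun d _ => mul_left_comm _ _ _
  rw [Finset.sum_congr rfl fun a _ => Finset.sum_congr rfl fun b _ => (w a b).trans (by rw [u]),
    alg (S := fun a b => ∑ c, ∑ d, e.D.o a b c d x.1 * k2 e.D.Z f c d x) d1 (fun k => z _)
      fun k => by simp only [o3 (some k), neg_mul, Finset.sum_neg_distrib, z], d0, pd]
  simp only [Finset.mul_sum]
  exact Finset.sum_congr rfl fun k _ => by ring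

/-- a monotone function that is constant off `[p, q]` -/
structure Ct (χ : ℝ → ℝ) (p q : ℝ) : Prop where
  le : p ≤ q
  sm : ContDiff ℝ ∞ χ
  cst : ∀ s ∉ Icc p q, ∃ c, χ =ᶠ[𝓝 s] fun _ => c
  mon : (∀ s, 0 ≤ deriv χ s) ∨ ∀ s, deriv χ s ≤ 0

theorem Ct.der {χ : ℝ → ℝ} {p q s : ℝ} (h : Ct χ p q) (hs : s ∉ Icc p q) : deriv χ s = 0 := by
  obtain ⟨c, hc⟩ := h.cst s hs
  rw [hc.deriv_eq, deriv_const]

theorem Ct.mean {Y : Type} [TopologicalSpace Y] [CompactSpace Y] [T2Space Y] [MeasurableSpace Y]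
    [BorelSpace Y] [SecondCountableTopology Y] (μ : Measure Y) [IsFiniteMeasureOnCompacts μ]
    {u : Y × ℝ → ℝ} {χ : ℝ → ℝ} {p q : ℝ} (h : Ct χ p q) (hu : ContinuousOn u (univ ×ˢ Icc p q)) :
    ∃ s ∈ Icc p q, ∫ x, deriv χ x.2 * u x ∂(μ.prod volume) = (χ q - χ p) * ∫ y, u (y, s) ∂μ := by
  have c : Continuous (deriv χ) := h.sm.continuous_deriv (by simp)
  have i : IntegrableOn (fun x : Y × ℝ => deriv χ x.2 * u x) (univ ×ˢ Icc p q) (μ.prod volume) :=
    ((c.comp continuous_snd).continuousOn.mul hu).integrableOn_compact (isCompact_univ.prod isCompact_Icc)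
  have c' : ContinuousOn (fun s => ∫ y, u (y, s) ∂μ) (uIcc p q) := uIcc_of_le h.le ▸
    continuousOn_integral_of_compact_support isCompact_univ
      (hu.comp continuous_swap.continuousOn fun z hz => ⟨trivial, hz.1⟩) fun _ _ _ k => (k trivial).elim
  rw [← setIntegral_eq_integral_of_forall_compl_eq_zero (s := univ ×ˢ Icc p q) fun x hx => by
    rw [h.der fun k => hx ⟨trivial, k⟩, zero_mul]]
  rw [IntegrableOn, ← Measure.prod_restrict] at i
  rw [← Measure.prod_restrict, integral_prod_symm _ i, ← intervalIntegral.integral_deriv_eq_sub (fun s _ => h.sm.differentiable (by simp) s)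
      (c.intervalIntegrable _ _)]
  simp only [Measure.restrict_univ, integral_const_mul]
  rw [integral_Icc_eq_integral_Ioc, ← intervalIntegral.integral_of_le h.le,
    ← uIcc_of_le h.le]
  simp only [mul_comm (deriv χ _), mul_comm (∫ s in p..q, deriv χ s)]
  rcases h.mon with k | k
  · exact exists_eq_const_mul_intervalIntegral_of_nonneg c' (c.intervalIntegrable _ _)
      fun s _ => k s
  · simpa [neg_inj] using exists_eq_const_mul_intervalIntegral_of_nonneg c'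
      (c.neg.intervalIntegrable _ _) fun s _ => neg_nonneg.2 (k s)

variable {b : NB κ X} {χ : ℝ → ℝ} {p q : ℝ}

theorem Ct.ev (h : Ct χ p q) {x : X.M} (hx : b.n.tm x ∉ Icc p q) :
    ∃ c, (fun x => χ (b.n.tm x)) =ᶠ[𝓝 x] fun _ => c :=
  (h.cst _ hx).imp fun _ hc => hc.comp_tendsto (b.n.cont.tendsto x)

theorem Ct.smT (h : Ct χ p q) (hJ : Icc p q ⊆ Jk b.s) (x : X.M) :
    ContMDiffAt X.I 𝓘(ℝ, ℝ) ∞ (fun x => χ (b.n.tm x)) x := by
  by_cases hx : x ∈ b.k.target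
  · refine (h.sm.contMDiff.contMDiffAt.comp x
      (contMDiffAt_snd.comp x (Nrm43.sm_k' b hx))).congr_of_eventuallyEq ?_
    exact eventually_of_mem (b.k.open_target.mem_nhds hx) fun y hy =>
      congrArg χ (NB.symm_snd hy).symm
  · obtain ⟨c, hc⟩ := h.ev (b := b) fun k => hx (b.tgt.ge (hJ k))
    exact contMDiffAt_const.congr_of_eventuallyEq hc

theorem slab (hJ : Icc p q ⊆ Jk b.s) : b.k '' (univ ×ˢ Icc p q) = b.n.tm ⁻¹' Icc p q := by
  ext x
  refine ⟨?_, fun hx => ?_⟩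
  · rintro ⟨y, hy, rfl⟩
    show b.n.tm (b.k y) ∈ Icc p q
    rw [NB.tm_k (b.src.ge ⟨trivial, hJ hy.2⟩)]; exact hy.2
  · have k : x ∈ b.k.target := b.tgt.ge (hJ hx)
    exact ⟨_, ⟨trivial, by rw [NB.symm_snd k]; exact hx⟩, b.k.right_inv k⟩

theorem slab_cpt (hJ : Icc p q ⊆ Jk b.s) : IsCompact (b.n.tm ⁻¹' Icc p q) :=
  slab hJ ▸ (isCompact_univ.prod isCompact_Icc).image_of_continuousOn
    (b.k.continuousOn.mono fun _ hy => b.src.ge ⟨trivial, hJ hy.2⟩)

theorem smAt_of {O K : Set X.M} (hK : IsClosed K) (hO : K ⊆ O) {w : X.Fm} (h : Dr59.Sm X.I O w)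
    (h0 : ∀ x ∉ K, w x = 0) (x : X.M) : SmAt X.I w x := by
  by_cases hx : x ∈ O
  · exact h x hx
  · exact Dr59.cAt_zero.congr (eventually_of_mem (hK.isOpen_compl.mem_nhds fun k => hx (hO k)) h0)

/-- **Stokes' formula for a cut-off in the time of a band** -/
theorem per (he : b.e.Std) (hz : ZO b.e) {O K : Set X.M} (hK : IsCompact K) (hO : K ⊆ O)
    {f α : X.Fm} (hf : Cl X.I 2 O f) (hα : Dr59.Sm X.I O α) (dα : Dg 1 O α) {r : ℝ} (z : b.Zf f r)
    (h : Ct χ p q) (hJ : Icc p q ⊆ Jm b.s 0) (hs' : b.n.tm ⁻¹' Icc p q ⊆ O)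
    (h0 : ∀ x ∉ K, χ (b.n.tm x) • f x = 0) : ∃ s ∈ Icc p q,
    integ X.I X.o ((fun x => χ (b.n.tm x)) • (dM X.I α * f)) =
      -(r / 4 * ((χ q - χ p) * hs b.e (pm (IC b.e.A.Y.I) X.I b.k α) s)) := by
  have hJ' := hJ.trans (jm_sub _ zero_le_one)
  set g := fun x => χ (b.n.tm x) with hg
  have sg := h.smT hJ'
  have k0 : ∀ a : X.Fm, ∀ x ∉ K, (g • (a * f)) x = 0 := fun a x hx => by
    rw [Pi.smul_apply', Pi.mul_apply, ← mul_smul_comm, h0 x hx, mul_zero]
  have d0 : ∀ x ∉ b.n.tm ⁻¹' Icc p q, df X.I g x = 0 := fun x hx =>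
    (h.ev hx).elim fun _ hc => Dr59.df_eq_zero hc
  have k1' : ∀ x ∉ b.n.tm ⁻¹' Icc p q, (df X.I g * α * f) x = 0 := fun x hx => by
    rw [Pi.mul_apply, Pi.mul_apply, d0 x hx, zero_mul, zero_mul]
  have cS := slab_cpt hJ'
  have s1 := smAt_of hK.isClosed hO ((hα.mul hf.sm).fsmul fun x _ => sg x) (k0 α)
  have s2 := smAt_of hK.isClosed hO ((hα.dM.mul hf.sm).fsmul fun x _ => sg x) (k0 _)
  have s3 := smAt_of cS.isClosed hs' (((Dr59.sm_df fun x _ => sg x).mul hα).mul hf.sm) k1'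
  have e : dM X.I (g • (α * f)) = df X.I g * α * f + g • (dM X.I α * f) := funext fun x => by
    by_cases hx : x ∈ O
    · rw [Dr59.dM_fsmul ne0 ((sg x).mdifferentiableAt ne0) ((hα.mul hf.sm) x hx),
        Dr59.dM_mul ne0 (hα x hx) (hf.sm x hx), hf.cl x hx, mul_zero, add_zero, mul_assoc]
      rfl
    · rw [Pi.add_apply, k0 _ x fun k => hx (hO k), k1' x fun k => hx (hs' k), add_zero,
        Dr59.dM_congr (b := 0) (eventually_of_mem (hK.isClosed.isOpen_compl.mem_nhds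
          fun k => hx (hO k)) (k0 α)), Dr59.dM_zero, Pi.zero_apply]
  have st := Int54.stokes_sm X.ori s1 (.intro hK (k0 α))
  rw [e, Int54.integ_add (X.ori.intOn_of_hcs (fun x => (s3 x).of_le (by simp)) (.intro cS k1') _)
    (X.ori.intOn_of_hcs (fun x => (s2 x).of_le (by simp)) (.intro hK (k0 _)) _)] at st
  have src : ∀ y ∈ (univ : Set b.e.A.Y.M) ×ˢ Icc p q, y ∈ b.k.source := fun y hy =>
    b.src.ge ⟨trivial, hJ' hy.2⟩
  have mO : ∀ y ∈ (univ : Set b.e.A.Y.M) ×ˢ Icc p q, b.k y ∈ O := fun y hy =>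
    hs' ((slab hJ').le (mem_image_of_mem _ hy))
  have d1 : ∀ y ∉ (univ : Set b.e.A.Y.M) ×ˢ Icc p q, ∀ a c : b.e.A.Y.M × ℝ → Ext (b.e.A.Y.E × ℝ),
      (df (IC b.e.A.Y.I) (fun z : b.e.A.Y.M × ℝ => χ z.2) * a * c) y = 0 := fun y hy a c => by
    obtain ⟨_, hc⟩ := h.cst y.2 fun k => hy ⟨trivial, k⟩
    rw [Pi.mul_apply, Pi.mul_apply, Dr59.df_eq_zero (continuous_snd.continuousAt.eventually hc),
      zero_mul, zero_mul]
  obtain ⟨s, m, e2⟩ := h.mean b.e.D.F.μ (u := pd b.e (pm (IC b.e.A.Y.I) X.I b.k α)) fun y hy =>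
    (pd_c hz (SmAt.pm (Nrm43.sm_k b (src y hy)) (hα _ (mO y hy)))).continuousWithinAt
  refine ⟨s, m, (eq_neg_of_add_eq_zero_right st).trans (congrArg _ ?_)⟩
  rw [Int54.integ_eq_of_map (X.X.dim.trans (dim4 b.e).symm) X.ori (ori_e b.e)
    (b := df (IC b.e.A.Y.I) (fun z : b.e.A.Y.M × ℝ => χ z.2) * pm (IC b.e.A.Y.I) X.I b.k α *
      pm (IC b.e.A.Y.I) X.I b.k f) (MeasurableSet.univ.prod measurableSet_Icc)
    (fun y hy => Nrm43.sm_k b (src y hy)) (b.k.injOn.mono src) ((Int54.SameOn.symm b.n.pos).mono src)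
    (fun x hx => by rw [k1' x (slab hJ' ▸ hx), map_zero]) (fun y hy => by rw [d1 y hy, map_zero])
    fun y hy => congrArg _ ?_, (ori_e b.e).integ_vol he.ok.G.vol, hs, ← e2, ← integral_const_mul]
  · refine integral_congr_ae (.of_forall fun y => ?_)
    by_cases hy : y ∈ (univ : Set b.e.A.Y.M) ×ˢ Icc p q
    · exact rat_cyl he hz h.sm ((dα _ (mO y hy)).pb _) fun a a' =>
        (cf_k2 b.e.D.Z _ a a' y).symm.trans (z y ⟨trivial, hJ hy.2⟩ a a')
    · simp only [rat, d1 y hy, h.der fun k => hy ⟨trivial, k⟩, map_zero, zero_div, zero_mul, mul_zero]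
  · rw [Dr59.pm_mul, Dr59.pm_mul, Pi.mul_apply, Pi.mul_apply, Pi.mul_apply, Pi.mul_apply,
      Dr59.pm_df ((Nrm43.sm_k b (src y hy)).mdifferentiableAt ne0) ((sg _).mdifferentiableAt ne0), df, df,
      Dr59.mf_congr (f := (fun x => χ (b.n.tm x)) ∘ b.n.k) (g := fun z : b.e.A.Y.M × ℝ => χ z.2) (eventually_of_mem
        (b.k.open_source.mem_nhds (src y hy)) fun z hz => congrArg χ (NB.tm_k hz))]
    rfl

end Crest.Agent.X212.Tw59
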